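import Mathlib
import Vale.Agent.P095.Defs

/-!
Interfaces inside Stage 1: the blocks of Rademacher pairs and the odd element.
-/

noncomputable section

open Filter Topology

namespace Vale.Agent.P095

universe u v

/-- The properties of the blocks of Stage 1 with N units in each of R blocks. -/
structure PairBlocks {G : Type v} [Group G] {A : Type u} [CStarAlgebra A] (c : Cfg G A) (S : Set A)
    (P : Finset G) (N R : ℕ) where
  E : Type v
  κ : Type v
  fintypeE : Fintype E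
  finiteκ : Fintype κ
  card_E : Fintype.card E = N.choose 2
  B : Blocks A P E κ R 1
  comm_v : ∀ r e a, ∀ s ∈ S, Commute (B.v r e a) s
  comm_z : ∀ r j, ∀ s ∈ S, Commute (B.z r j) s
  act_v : ∀ (h : G) (a b : P), (b : G) = h * a → ∀ r e, c.act h (B.v r e a) = B.v r e b
  norm_K : ∀ a b, ‖B.Kbar a b‖ ≤ 1
  star_K : ∀ a b, star (B.Kbar a b) = B.Kbar b a
  br_z : ∀ r j a b, ‖br (B.z r j) (B.Kbar a b)‖ ≤ 4 / R
  br_v : ∀ r e k a b, ‖br (B.v r e k) (B.Kbar a b)‖ ≤ 4 / R
  br_K : ∀ a b a' b', ‖br (B.Kbar a b) (B.Kbar a' b')‖ ≤ 4 / R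
  sym_K : ∀ a b, Small c.T (B.Kbar a b - B.Kbar b a) (8 / Real.sqrt N)
  diag_K : ∀ a, B.Kbar a a = 1
  nonneg_K : ∀ a b, ∃ D, ‖D‖ ≤ 1 ∧ Small c.T (B.Kbar a b - star D * D) (8 / Real.sqrt N)
  gram_K : ∀ t : P → ℝ, ∃ D, star D * D = ∑ a, ∑ b, (t a * t b) • B.Kbar a b

/-- Blocks exist. -/
def PairBlocksStatement : Prop :=
  ∀ (G : Type v) [Group G] [Countable G] (A : Type u) [CStarAlgebra A] (c : Cfg G A) (S : Set A),
    S.Countable → ∀ (P : Finset G) (N R : ℕ), 2 ≤ N → 0 < R → Nonempty (PairBlocks c S P N R)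

/-- From exact pairs to odd pairs. -/
def OddStatement : Prop :=
  ∀ (G : Type v) [Group G] [Countable G] (A : Type u) [CStarAlgebra A] (c : Cfg G A),
    (∀ S : Set A, S.Countable → ∃ U b, ExactPair c.T c.act S U b) →
      ∀ S : Set A, S.Countable → ∃ U o, OddPair c S U o

end Vale.Agent.P095
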