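import Mathlib
import Vale.Agent.P095.Defs
import Vale.Agent.P095.Basic
import Vale.Agent.P095.Poly
import Vale.Agent.P095.Haar
import Vale.Agent.P095.Stage1.Defs

/-!
Stage 1, assembly: approximate pairs from Gaussian sums over blocks of fresh pairs.
-/

noncomputable section

open Filter Topology Polynomial

namespace Vale.Agent.P095

universe u v

/-- The two-norm Lipschitz bound for the exponential. -/
def ExpLipStatement : Prop :=
  ∀ (A : Type u) [CStarAlgebra A] (τ : A →ₗ[ℂ] ℂ), IsTr τ →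
    ∀ a b : A, IsSelfAdjoint a → IsSelfAdjoint b → ∀ t : ℝ,
      sn τ (ex a t - ex b t) ≤ |t| * sn τ (a - b)

variable {G : Type v} {A : Type u} [CStarAlgebra A]

lemma map_sinEl {B : Type u} [CStarAlgebra B] (f : A →⋆ₐ[ℂ] B) (T : A) (w : ℝ) :
    f (sinEl T w) = sinEl (f T) w := by
  rw [sinEl, sinEl, map_smul, map_sub, map_ex, map_ex]

lemma sn_sinEl_sub_le (hLip : ExpLipStatement.{u}) {τ : A →ₗ[ℂ] ℂ} (hτ : IsTr τ) {a b : A}
    (ha : IsSelfAdjoint a) (hb : IsSelfAdjoint b) (w : ℝ) :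
    sn τ (sinEl a w - sinEl b w) ≤ |w| * sn τ (a - b) := by
  have h1 := hLip A τ hτ a b ha hb w
  have h2 := hLip A τ hτ a b ha hb (-w)
  rw [abs_neg] at h2
  rw [sinEl, sinEl, ← smul_sub, hτ.sn_smul]
  have h3 : sn τ (ex a w - ex a (-w) - (ex b w - ex b (-w))) ≤ 2 * (|w| * sn τ (a - b)) := by
    rw [show ex a w - ex a (-w) - (ex b w - ex b (-w))
      = (ex a w - ex b w) - (ex a (-w) - ex b (-w)) by abel]
    exact (hτ.sn_sub_le _ _).trans (by linarith)
  simp only [mul_inv, norm_mul, norm_inv, Complex.norm_ofNat, Complex.norm_I, inv_one, mul_one]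
  linarith

lemma quad_push_comp {ι P : Type v} [Fintype ι] [DecidableEq ι] [Fintype P] (j : P → ι)
    (x : ι → ι → ℝ) (t : P → ℝ) :
    quad x (push j t) = quad (fun a b => x (j a) (j b)) t := by
  simp only [quad, push]
  calc ∑ k, ∑ l, (∑ a, if j a = k then t a else 0) * (∑ b, if j b = l then t b else 0) * x k l
      = ∑ k, ∑ l, ∑ a, ∑ b, (if j a = k then t a else 0) * (if j b = l then t b else 0) * x k l := by
        simp only [Finset.sum_mul, Finset.mul_sum]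
        exact Finset.sum_congr rfl fun k _ => Finset.sum_congr rfl fun l _ => Finset.sum_comm
    _ = ∑ k, ∑ a, ∑ l, ∑ b,
          (if j a = k then t a else 0) * (if j b = l then t b else 0) * x k l :=
        Finset.sum_congr rfl fun k _ => Finset.sum_comm
    _ = ∑ a, ∑ k, ∑ b, ∑ l,
          (if j a = k then t a else 0) * (if j b = l then t b else 0) * x k l := by
        rw [Finset.sum_comm]
        exact Finset.sum_congr rfl fun a _ => Finset.sum_congr rfl fun k _ => Finset.sum_comm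
    _ = ∑ a, ∑ b, t a * t b * x (j a) (j b) := by
        refine Finset.sum_congr rfl fun a _ => ?_
        rw [Finset.sum_eq_single (j a) (fun k _ hk => by simp [Ne.symm hk]) (by simp)]
        refine Finset.sum_congr rfl fun b _ => ?_
        rw [Finset.sum_eq_single (j b) (fun k _ hk => by simp [Ne.symm hk]) (by simp)]
        simp

lemma mem_Dom_comp {ι P : Type v} [Fintype ι] [DecidableEq ι] [Fintype P] (j : P → ι)
    {x : ι → ι → ℝ} (hx : x ∈ Dom ι) : (fun a b => x (j a) (j b)) ∈ Dom P :=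
  ⟨fun a b => hx.1 _ _, fun a b => hx.2.1 _ _, fun a => hx.2.2.1 _, fun t => by
    have h : 0 ≤ quad x (push j t) := hx.2.2.2 _
    rwa [quad_push_comp] at h⟩

lemma ncard_symmDiff_translate [Group G] (P : Finset G) (h : G) {ι : Type v} (f : ι → G)
    (hf : Function.Injective f) (j₁ j₂ : P → ι) (h₁ : ∀ a, f (j₁ a) = a)
    (h₂ : ∀ a, f (j₂ a) = h * a) :
    (Set.ncard (symmDiff (Set.range j₁) (Set.range j₂)) : ℝ)
      ≤ 2 * Set.ncard (((h * ·) '' (P : Set G)) \ (P : Set G)) := by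
  have hP1 : f '' Set.range j₁ = (P : Set G) := by
    ext g
    simp only [Set.mem_image, Set.mem_range, exists_exists_eq_and, h₁, Finset.mem_coe]
    exact ⟨fun ⟨a, ha⟩ => ha ▸ a.2, fun hg => ⟨⟨g, hg⟩, rfl⟩⟩
  have hP2 : f '' Set.range j₂ = (h * ·) '' (P : Set G) := by
    ext g
    simp only [Set.mem_image, Set.mem_range, exists_exists_eq_and, h₂, Finset.mem_coe]
    exact ⟨fun ⟨a, ha⟩ => ⟨a, a.2, ha⟩, fun ⟨a, ha, hg⟩ => ⟨⟨a, ha⟩, hg⟩⟩
  rw [← Set.ncard_image_of_injective _ hf, Set.image_symmDiff hf, hP1, hP2]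
  have hfin : ((h * ·) '' (P : Set G)).Finite := P.finite_toSet.image _
  have hc : Set.ncard ((P : Set G) \ (h * ·) '' (P : Set G))
      = Set.ncard (((h * ·) '' (P : Set G)) \ (P : Set G)) :=
    (Set.ncard_eq_ncard_iff_ncard_sdiff_eq_ncard_sdiff P.finite_toSet hfin).1
      (Set.ncard_image_of_injective _ (mul_right_injective h)).symm
  have hu : Set.ncard (symmDiff (P : Set G) ((h * ·) '' (P : Set G)))
      ≤ 2 * Set.ncard (((h * ·) '' (P : Set G)) \ (P : Set G)) := by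
    rw [Set.symmDiff_def]
    refine (Set.ncard_union_le _ _).trans ?_
    rw [hc]; omega
  exact_mod_cast hu

/-- Bounds for the evaluations of one polynomial. -/
def EvBound {ι : Type v} (p : Poly ι) (L : ℝ) : Prop :=
  ∀ (B : Type u) [CStarAlgebra B] (K : ι → ι → B), (∀ a b, ‖K a b‖ ≤ 1) →
    ‖evA K p‖ ≤ L ∧ ∀ (x : B) (δ : ℝ), 0 ≤ δ → (∀ a b, ‖br x (K a b)‖ ≤ δ) →
      ‖br x (evA K p)‖ ≤ L * δ

lemma soft_of_bounds [Group G] {c : Cfg G A} {S : Set A} {P : Finset G} {N R : ℕ}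
    (pb : PairBlocks c S P N R) {L D : ℝ} (hL : 0 ≤ L) (hR : (0 : ℝ) < R) (hLD : L ≤ D)
    (hLD4 : L * 4 ≤ D) (hLLD : L * (L * 4) ≤ D) :
    letI := pb.fintypeE
    ∀ (pol : P → Poly P) (Lk : P → ℝ), (∀ k, 0 ≤ Lk k ∧ Lk k ≤ L) →
      (∀ k, EvBound.{u} (pol k) (Lk k)) → (∀ k, IsSelfAdjoint (evA pb.B.Kbar (pol k))) →
        pb.B.Soft (fun k => evA pb.B.Kbar (pol k)) D := by
  letI := pb.fintypeE
  intro pol Lk hLk hpol hsa
  have hev := fun k => hpol k A _ pb.norm_K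
  have hbr : ∀ k (x : A), (∀ a b, ‖br x (pb.B.Kbar a b)‖ ≤ 4 / R) →
      ‖br x (evA pb.B.Kbar (pol k))‖ ≤ D / R := fun k x hx => by
    refine ((hev k).2 x _ (by positivity) hx).trans ?_
    rw [← mul_div_assoc, div_le_div_iff_of_pos_right hR]
    exact (mul_le_mul_of_nonneg_right (hLk k).2 (by norm_num)).trans hLD4
  refine ⟨hsa, fun k => ((hev k).1.trans ((hLk k).2.trans hLD)),
    fun k r j => hbr k _ (pb.br_z r j), fun k r e b => hbr k _ (pb.br_v r e b), fun k l => ?_⟩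
  have hx : ∀ a b, ‖br (evA pb.B.Kbar (pol k)) (pb.B.Kbar a b)‖ ≤ Lk k * (4 / R) := fun a b => by
    rw [show br (evA pb.B.Kbar (pol k)) (pb.B.Kbar a b)
      = -br (pb.B.Kbar a b) (evA pb.B.Kbar (pol k)) by simp [br], norm_neg]
    exact (hev k).2 _ _ (by positivity) (pb.br_K a b)
  refine ((hev l).2 _ _ (mul_nonneg (hLk k).1 (by positivity)) hx).trans ?_
  rw [← mul_div_assoc, ← mul_div_assoc, div_le_div_iff_of_pos_right hR]
  exact (mul_le_mul (hLk l).2 (mul_le_mul_of_nonneg_right (hLk k).2 (by norm_num))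
    (mul_nonneg (hLk k).1 (by norm_num)) hL).trans hLLD

lemma rate_arith {Λ δ Y : ℝ} {R i : ℕ} (hΛ : 0 ≤ Λ) (hR : (0 : ℝ) < R) (hY : 1 ≤ Y)
    (hδ : δ ≤ 1 / (((i : ℝ) + 1) * (Λ * Real.sqrt R + 1) * Y) * Y)
    (hr : Λ / Real.sqrt R ≤ 1 / ((i : ℝ) + 1)) :
    Λ * (1 / Real.sqrt R + Real.sqrt R * δ) ≤ 2 * (1 / ((i : ℝ) + 1)) := by
  have h0 : 0 < Real.sqrt R := Real.sqrt_pos.2 hR
  have hs : Λ * (Real.sqrt R * δ) ≤ 1 / ((i : ℝ) + 1) := by
    calc Λ * (Real.sqrt R * δ)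
        ≤ Λ * (Real.sqrt R * (1 / (((i : ℝ) + 1) * (Λ * Real.sqrt R + 1) * Y) * Y)) := by gcongr
      _ = Λ * Real.sqrt R / (Λ * Real.sqrt R + 1) * (1 / ((i : ℝ) + 1)) := by field_simp
      _ ≤ 1 * (1 / ((i : ℝ) + 1)) := by
          gcongr
          rw [div_le_one (by positivity)]
          linarith
      _ = _ := one_mul _
  rw [mul_add, mul_one_div]
  linarith

lemma moment_arith {w Θ Y η₀ θ e n m Λ X r : ℝ} (hw1 : 1 ≤ w) (hY : 1 ≤ Y) (hη₀ : 0 < η₀)
    (hw : 4 * Y / η₀ ≤ w) (hθ1 : w ≤ |θ|) (hθ2 : |θ| ≤ Θ) (he0 : 0 ≤ e) (he : e ≤ Y) (hn0 : 0 ≤ n)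
    (hn : n ≤ Y) (hm0 : 0 ≤ m) (hm : m ≤ η₀ / (4 * Θ * (1 + Θ) * Y)) (hΛ : 0 ≤ Λ)
    (hX : Λ * X ≤ 2 * r) (hr : Θ * (1 + Θ ^ 2) * (2 * r + r) ≤ η₀ / 4) :
    Real.exp (-(θ ^ 2) / 2) * e + |θ| * ((1 + |θ|) * n * m + Λ * (1 + θ ^ 2) * X) ≤ η₀ := by
  have hw0 : 0 < w := zero_lt_one.trans_le hw1
  have hΘ : 0 < Θ := hw0.trans_le (hθ1.trans hθ2)
  have hexp : Real.exp (-(θ ^ 2) / 2) * e ≤ η₀ / 2 := by
    have h1 : w ≤ θ ^ 2 := by
      rw [← sq_abs]; nlinarith
    have h2 : Real.exp (-(θ ^ 2) / 2) ≤ 2 / w := by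
      rw [neg_div, Real.exp_neg, inv_le_comm₀ (Real.exp_pos _) (by positivity), inv_div]
      linarith [Real.add_one_le_exp (θ ^ 2 / 2)]
    refine (mul_le_mul h2 he he0 (by positivity)).trans ?_
    rw [div_le_iff₀ hη₀] at hw
    rw [div_mul_eq_mul_div, div_le_iff₀ hw0]
    linarith
  have h1 : |θ| * ((1 + |θ|) * n * m) ≤ η₀ / 4 := by
    calc _ ≤ Θ * ((1 + Θ) * Y * (η₀ / (4 * Θ * (1 + Θ) * Y))) :=
          mul_le_mul hθ2 (mul_le_mul (mul_le_mul (by linarith) hn hn0 (by positivity)) hm hm0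
            (by positivity)) (mul_nonneg (by positivity) hm0) hΘ.le
      _ = η₀ / 4 := by field_simp
  have hsq : θ ^ 2 ≤ Θ ^ 2 := by rw [← sq_abs]; gcongr
  have h2 : |θ| * (Λ * (1 + θ ^ 2) * X) ≤ η₀ / 4 := by
    rcases le_total r 0 with hr0 | hr0
    · have : Λ * (1 + θ ^ 2) * X ≤ 0 := by
        rw [mul_right_comm]
        exact mul_nonpos_of_nonpos_of_nonneg (hX.trans (by linarith)) (by positivity)
      linarith [mul_nonpos_of_nonneg_of_nonpos (abs_nonneg θ) this]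
    calc |θ| * (Λ * (1 + θ ^ 2) * X) = |θ| * ((1 + θ ^ 2) * (Λ * X)) := by ring
      _ ≤ |θ| * ((1 + θ ^ 2) * (2 * r)) := by gcongr
      _ ≤ Θ * ((1 + Θ ^ 2) * (2 * r + r)) := by
          gcongr
          linarith
      _ = Θ * (1 + Θ ^ 2) * (2 * r + r) := by ring
      _ ≤ η₀ / 4 := hr
  linarith [mul_add |θ| ((1 + |θ|) * n * m) (Λ * (1 + θ ^ 2) * X)]

/-- Approximate pairs exist in every working setting. -/
theorem exists_approx (hW : WeightsStatement.{v}) (hA : AsympStatement.{u, v})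
    (hGa : GaussStatement.{u, v}) (hSw : SweepStatement.{u, v}) (hLip : ExpLipStatement.{u})
    (hPB : PairBlocksStatement.{u, v}) [Group G] [Countable G] (c : Cfg G A) (hG : Folner G)
    {S : Set A} (hS : S.Countable) (S' : Finset A) (hS' : (S' : Set A) ⊆ S) (E : Finset G)
    {ε : ℝ} (hε : 0 < ε) : ∃ U b, ApproxPair c.T c.act S S' E ε U b := by
  classical
  -- the sign polynomial and the constants
  obtain ⟨p, d, hodd, hbd, M, hM0, hMp⟩ :=
    exists_sign_poly.{u} (show 0 < ε ^ 2 / 2 by positivity)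
  set d' : ℕ := max d p.natDegree
  set Cs : ℝ := ∑ n ∈ p.support, |p.coeff n|
  set Lp : ℝ := ∑ n ∈ p.support, |p.coeff n| * n
  have hCs : 0 ≤ Cs := Finset.sum_nonneg fun _ _ => abs_nonneg _
  have hLp : 0 ≤ Lp := Finset.sum_nonneg fun _ _ => by positivity
  set Y : ℝ := ∑ s ∈ S', ‖s‖ + 1
  have hY : 1 ≤ Y := le_add_of_nonneg_left (Finset.sum_nonneg fun _ _ => norm_nonneg _)
  have hsY : ∀ s ∈ S', ‖s‖ ≤ Y := fun s hs =>
    (Finset.single_le_sum (f := fun s : A => ‖s‖) (fun _ _ => norm_nonneg _) hs).trans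
      (le_add_of_nonneg_right zero_le_one)
  set η₀ : ℝ := min ε (ε ^ 2 / 2) / (M + Cs + 1)
  have hη₀ : 0 < η₀ := div_pos (lt_min hε (by positivity)) (by positivity)
  set w : ℝ := max 1 (4 * Y / η₀)
  have hw1 : 1 ≤ w := le_max_left _ _
  have hw0 : 0 < w := zero_lt_one.trans_le hw1
  set Θ : ℝ := (d' + 1) * w
  have hΘ : 0 < Θ := by positivity
  set γ : ℝ := (ε / ((Lp + 1) * w)) ^ 2
  have hγ : 0 < γ := by positivity
  set η₁ : ℝ := η₀ / (4 * Θ * (1 + Θ) * Y)
  have hη₁ : 0 < η₁ := by positivity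
  set εW : ℝ := min (η₁ / 2) (γ / 4)
  have hεW : 0 < εW := lt_min (by positivity) (by positivity)
  -- the window and the weights
  obtain ⟨P₀, hP₀, hPF⟩ := hG E (γ / 16) (by positivity)
  have : Nonempty P₀ := hP₀.to_subtype
  obtain ⟨q, hq1, hq2⟩ := hW P₀ εW hεW
  choose q' hq'sa hq'eq using fun a => exists_sa_evA.{u} (q a)
  set P : Finset G := P₀ ∪ E.biUnion fun h => P₀.image (h * ·)
  let j₁ : P₀ → P := fun a => ⟨a, Finset.mem_union_left _ a.2⟩
  let j₂ : E → P₀ → P := fun h a => ⟨h * a, Finset.mem_union_right _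
    (Finset.mem_biUnion.2 ⟨h, h.2, Finset.mem_image_of_mem _ a.2⟩)⟩
  have hj₁ : Function.Injective j₁ := fun a b hab =>
    Subtype.ext (congrArg (fun x : P => (x : G)) hab)
  have hj₂ : ∀ h, Function.Injective (j₂ h) := fun h a b hab =>
    Subtype.ext (mul_left_cancel (congrArg (fun x : P => (x : G)) hab))
  let π₁ : P → Poly P := pushP j₁ fun a => ren j₁ (q' a)
  let π₂ : E → P → Poly P := fun h => pushP (j₂ h) fun a => ren (j₂ h) (q' a)
  let Δ : E → P → Poly P := fun h k => π₁ k - π₂ h k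
  -- values on the domain
  have hq' : ∀ (ι : Type v) [Fintype ι] [DecidableEq ι] (j : P₀ → ι) (x : ι → ι → ℝ), x ∈ Dom ι →
      (fun k => evR x (pushP j (fun a => ren j (q' a)) k))
        = push j fun a => evR (fun s t => x (j s) (j t)) (q a) := by
    intro ι _ _ j x hx
    funext k
    rw [map_pushP (evR x), ← pushP_real]
    simp only [evR_ren]
    congr 1
    exact funext fun a => hq'eq a _ fun s t => hx.1 _ _
  have hπ₁ : ∀ x ∈ Dom P, |evR x (quadP π₁ - 1)| ≤ εW := fun x hx => by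
    rw [map_sub, map_one, evR_quadP, hq' P j₁ x hx, quad_push_comp]
    exact hq1 _ (mem_Dom_comp j₁ hx)
  have hΔ : ∀ h : E, ∀ x ∈ Dom P, |evR x (quadP (Δ h))| ≤ γ / 8 + εW := by
    intro h x hx
    have e : (fun k => evR x (Δ h k)) = fun k => push j₁ (fun a => evR (fun s t => x (j₁ s) (j₁ t)) (q a)) k
        - push (j₂ h) (fun a => evR (fun s t => x (j₂ h s) (j₂ h t)) (q a)) k := by
      funext k
      rw [show evR x (Δ h k) = evR x (π₁ k) - evR x (π₂ h k) from map_sub _ _ _]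
      rw [show evR x (π₁ k) = _ from congrFun (hq' P j₁ x hx) k,
        show evR x (π₂ h k) = _ from congrFun (hq' P (j₂ h) x hx) k]
    rw [evR_quadP, e, abs_of_nonneg]
    · refine (hq2 P j₁ (j₂ h) hj₁ (hj₂ h) x hx).trans (add_le_add ?_ le_rfl)
      have h1 := ncard_symmDiff_translate P₀ (h : G) (fun k : P => (k : G)) Subtype.coe_injective
        j₁ (j₂ h) (fun a => rfl) (fun a => rfl)
      have h2 := hPF h h.2
      have h3 : (0 : ℝ) < P₀.card := by exact_mod_cast hP₀.card_pos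
      rw [Fintype.card_coe, div_le_iff₀ h3]
      linarith
    · exact hx.2.2.2 _
  -- bounds for the coefficients
  choose L₁ hL₁0 hL₁ using fun k => exists_evA_bound.{u} (π₁ k) 1
  choose L₂ hL₂0 hL₂ using fun hk : E × P => exists_evA_bound.{u} (Δ hk.1 hk.2) 1
  set L : ℝ := ∑ k, L₁ k + ∑ hk, L₂ hk + 1
  have hsum₁ : ∀ k, L₁ k ≤ L := fun k => by
    have := Finset.single_le_sum (f := L₁) (fun k _ => hL₁0 k) (Finset.mem_univ k)
    linarith [Finset.sum_nonneg fun hk (_ : hk ∈ Finset.univ) => hL₂0 hk]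
  have hsum₂ : ∀ hk, L₂ hk ≤ L := fun hk => by
    have := Finset.single_le_sum (f := L₂) (fun k _ => hL₂0 k) (Finset.mem_univ hk)
    linarith [Finset.sum_nonneg fun k (_ : k ∈ Finset.univ) => hL₁0 k]
  have hL1 : 1 ≤ L := le_add_of_nonneg_left (add_nonneg (Finset.sum_nonneg fun k _ => hL₁0 k)
    (Finset.sum_nonneg fun k _ => hL₂0 k))
  set D : ℝ := 4 * L + 4 * L ^ 2 + Y
  have hYD : Y ≤ D := le_add_of_nonneg_left (by positivity)
  have hLD : L ≤ D := by nlinarith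
  have hLD4 : L * 4 ≤ D := by nlinarith
  have hLLD : L * (L * 4) ≤ D := by nlinarith
  -- the blocks
  have hn : ∀ i : ℕ, 0 < (i + 2).choose 2 := fun i => Nat.choose_pos (by omega)
  choose Λ hΛ0 hΛ using fun i => hGa 1 D (Fintype.card P) ((i + 2).choose 2) (hn i)
  let R : ℕ → ℕ := fun i => ⌈(((i : ℝ) + 1) * (Λ i + 1)) ^ 2⌉₊ + i + 1
  have hRroot : ∀ i, Λ i / Real.sqrt (R i) ≤ 1 / ((i : ℝ) + 1) := by
    intro i
    have h1 : (((i : ℝ) + 1) * (Λ i + 1)) ≤ Real.sqrt (R i) := by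
      refine Real.le_sqrt_of_sq_le ?_
      have := Nat.le_ceil ((((i : ℝ) + 1) * (Λ i + 1)) ^ 2)
      simp only [R]; push_cast
      linarith
    have hΛi := hΛ0 i
    have hi : (0 : ℝ) < (i : ℝ) + 1 := by positivity
    have h0 : 0 < Real.sqrt (R i) := lt_of_lt_of_le (by positivity) h1
    rw [div_le_div_iff₀ h0 hi, one_mul]
    nlinarith
  have hRge : ∀ i : ℕ, (i : ℝ) + 1 ≤ R i := fun i => by
    have h : i + 1 ≤ R i := by simp only [R]; omega
    exact_mod_cast h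
  have pb : ∀ i, PairBlocks c S P (i + 2) (R i) := fun i =>
    (hPB G A c S hS P (i + 2) (R i) (by omega) (by simp only [R]; omega)).some
  let K : ℕ → P → P → A := fun i => by
    letI := (pb i).fintypeE
    exact (pb i).B.Kbar
  have hzero : Tendsto (fun i : ℕ => 8 / Real.sqrt ((i : ℝ) + 1)) atTop (𝓝 0) :=
    tendsto_const_nhds.div_atTop
      (Real.tendsto_sqrt_atTop.comp (tendsto_natCast_atTop_atTop.atTop_add tendsto_const_nhds))
  have hzero' : Tendsto (fun i : ℕ => 1 / ((i : ℝ) + 1)) atTop (𝓝 0) :=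
    tendsto_one_div_add_atTop_nhds_zero_nat
  have hsq : ∀ i : ℕ, 8 / Real.sqrt ((i + 2 : ℕ) : ℝ) ≤ 8 / Real.sqrt ((i : ℝ) + 1) := fun i => by
    gcongr
    push_cast; linarith
  have hasy := hA A c.T c.tr P K 1 (fun i => (pb i).norm_K) (fun i => (pb i).star_K)
    (fun a b a' b' η hη => by
      filter_upwards [hzero'.eventually_le_const (show 0 < η / 4 by positivity)] with i hi τ hτ
      let := (pb i).fintypeE
      refine ((c.tr τ hτ).sn_le_norm _).trans (((pb i).br_K a b a' b').trans ?_)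
      calc (4 : ℝ) / R i ≤ 4 / ((i : ℝ) + 1) := by
            gcongr
            exact hRge i
        _ ≤ η := by rw [div_eq_mul_one_div]; linarith)
    (fun a b η hη => by
      filter_upwards [hzero.eventually_le_const hη] with i hi τ hτ
      exact ((pb i).sym_K a b τ hτ).trans ((hsq i).trans hi))
    (fun a η hη => Eventually.of_forall fun i τ hτ => by
      show sn τ (K i a a - 1) ≤ η
      rw [show K i a a = 1 from (pb i).diag_K a, sub_self, (c.tr τ hτ).sn_zero]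
      exact hη.le)
    (fun a b => by
      choose Dn hDn1 hDn2 using fun i => (pb i).nonneg_K a b
      refine ⟨Dn, hDn1, fun η hη => ?_⟩
      filter_upwards [hzero.eventually_le_const hη] with i hi τ hτ
      exact (hDn2 i τ hτ).trans ((hsq i).trans hi))
    (fun i => (pb i).gram_K)
  have hev : ∀ᶠ i : ℕ in atTop, Small c.T (evA (K i) (quadP π₁ - 1)) (εW + η₁ / 2) ∧
      (∀ h : E, Small c.T (evA (K i) (quadP (Δ h))) (γ / 8 + εW + γ / 4)) ∧
      Θ * (1 + Θ ^ 2) * (2 * (1 / ((i : ℝ) + 1)) + 1 / ((i : ℝ) + 1)) ≤ η₀ / 4 ∧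
      1 / ((i : ℝ) + 1) ≤ γ / 4 := by
    refine ((hasy _ εW hεW.le hπ₁ (η₁ / 2) (by positivity)).and
      ((Filter.eventually_all.2 fun h => hasy _ (γ / 8 + εW) (by positivity) (hΔ h) (γ / 4)
        (by positivity)).and (Eventually.and ?_ (hzero'.eventually_le_const (by positivity)))))
    have : Tendsto (fun i : ℕ => Θ * (1 + Θ ^ 2) * (2 * (1 / ((i : ℝ) + 1)) + 1 / ((i : ℝ) + 1)))
        atTop (𝓝 0) := by
      simpa using ((hzero'.const_mul 2).add hzero').const_mul (Θ * (1 + Θ ^ 2))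
    exact this.eventually_le_const (by positivity)
  obtain ⟨i, hiM, hiΔ, hiθ, hiR⟩ := hev.exists
  -- the sum at the chosen index
  let := (pb i).fintypeE
  let := (pb i).finiteκ
  set B := (pb i).B
  have hR0 : (0 : ℝ) < R i := lt_of_lt_of_le (by positivity) (hRge i)
  have hRn : 0 < R i := by exact_mod_cast hR0
  have hXsa : ∀ k, IsSelfAdjoint (B.X k) := fun k =>
    (IsSelfAdjoint.all _).smul (isSelfAdjoint_sum _ fun r _ =>
      (IsSelfAdjoint.all _).smul (isSelfAdjoint_sum _ fun e _ => B.sa r e k))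
  have hKS : ∀ s ∈ S, ∀ a b, Commute s (B.Kbar a b) := fun s hs a b =>
    (Commute.sum_right _ _ _ fun r _ => (Commute.sum_right _ _ _ fun e _ =>
      ((pb i).comm_v r e a s hs).symm.mul_right ((pb i).comm_v r e b s hs).symm).smul_right _).smul_right _
  have hXS : ∀ s ∈ S, ∀ k, Commute s (B.X k) := fun s hs k =>
    (Commute.sum_right _ _ _ fun r _ => (Commute.sum_right _ _ _ fun e _ =>
      ((pb i).comm_v r e k s hs).symm).smul_right _).smul_right _
  have hsaπ : ∀ (j : P₀ → P) (k : P), IsSelfAdjoint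
      (evA B.Kbar (pushP j (fun a => ren j (q' a)) k)) := fun j k => by
    rw [map_pushP (evA B.Kbar)]
    refine isSelfAdjoint_sum _ fun a _ => ?_
    split_ifs
    · simp only [evA_ren]
      exact hq'sa a A _ fun s t => (pb i).star_K _ _
    · exact .zero A
  have hsoft : ∀ (pol : P → Poly P) (Lk : P → ℝ), (∀ k, 0 ≤ Lk k ∧ Lk k ≤ L) →
      (∀ k, EvBound.{u} (pol k) (Lk k)) → (∀ k, IsSelfAdjoint (evA B.Kbar (pol k))) →
      B.Soft (fun k => evA B.Kbar (pol k)) D :=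
    soft_of_bounds (pb i) (zero_le_one.trans hL1) hR0 hLD hLD4 hLLD
  set wt : P → A := fun k => evA B.Kbar (π₁ k)
  have hsoft₁ : B.Soft wt D :=
    hsoft π₁ L₁ (fun k => ⟨hL₁0 k, hsum₁ k⟩) hL₁ (hsaπ j₁)
  set T : A := lin wt B.X
  have hTsa : IsSelfAdjoint T := isSelfAdjoint_lin (hsaπ j₁) hXsa
  have hTS : ∀ s ∈ S, Commute s T := fun s hs =>
    commute_lin (fun k => commute_evA (hKS s hs) _) (hXS s hs)
  set U : A := aeval (sinEl T w) p
  obtain ⟨hUsa, hUn⟩ := aeval_contraction (isSelfAdjoint_sinEl hTsa w) (norm_sinEl_le hTsa w) hbd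
  have hUS : ∀ s ∈ S, Commute U s := fun s hs => by
    have h1 : Commute s (sinEl T w) :=
      ((commute_ex (hTS s hs) w).sub_right (commute_ex (hTS s hs) (-w))).smul_right _
    have h2 : U ∈ Subalgebra.centralizer ℝ {s} := by
      refine Algebra.adjoin_le ?_ (Polynomial.aeval_mem_adjoin_singleton ℝ (sinEl T w))
      simpa [Set.mem_centralizer_iff] using h1.eq
    exact ((Subalgebra.mem_centralizer_iff ℝ).1 h2 s rfl).symm
  -- the sweep
  set zs : Finset A := Finset.univ.image fun rj : Fin (R i) × (pb i).κ => B.z rj.1 rj.2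
  set εs : ℝ := 1 / (((i : ℝ) + 1) * (Λ i * Real.sqrt (R i) + 1) * Y)
  have hεs : 0 < εs := by
    have := hΛ0 i
    positivity
  obtain ⟨b, Q, hb1, hb2, hQn, hbS, hQS, hQ⟩ := hSw G A c S hS zs (fun z hz => by
      obtain ⟨rj, -, rfl⟩ := Finset.mem_image.1 hz
      exact ⟨B.z_sa _ _, B.z_sq _ _, fun s hs => (pb i).comm_z _ _ s hs⟩)
    U hUsa hUn hUS εs hεs
  -- moments
  have hMsmall : ∀ τ ∈ c.T,
      sn τ ((∑ a, ∑ a', wt a * wt a' * B.Kbar a a') - 1) ≤ η₁ := fun τ hτ => by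
    have h := hiM τ hτ
    simp only [K, map_sub, map_one, evA_quadP] at h
    exact h.trans (by linarith [min_le_left (η₁ / 2) (γ / 4)])
  have hmom : ∀ τ ∈ c.T, ∀ (y : A) (δ : ℝ), ‖y‖ ≤ Y → 0 ≤ δ → δ ≤ εs * Y →
      (∀ r j, sn τ (br (B.z r j) y) ≤ δ) → ∀ k : ℤ, k ≠ 0 → k.natAbs ≤ d' →
        ‖τ (y * ex T (k * w))‖ ≤ η₀ := by
    intro τ hτ y δ hy hδ0 hδ hyz k hk hkd
    have h := (hΛ i A τ (c.tr τ hτ) P (pb i).E (pb i).κ (Fintype.card_congr (Equiv.refl _))
      (pb i).card_E (R i) hRn B wt hsoft₁).2 y δ (hy.trans hYD) hδ0 hyz ((k : ℝ) * w)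
    refine (show ‖τ (y * ex T (k * w))‖ ≤ _ from h).trans ?_
    have hk1 : (1 : ℝ) ≤ |(k : ℝ)| := by
      rw [← Int.cast_abs]; exact_mod_cast Int.one_le_abs hk
    have hk2 : |(k : ℝ)| ≤ d' := by
      rw [← Int.cast_abs, ← Int.natCast_natAbs]
      exact_mod_cast hkd
    have hθ1 : w ≤ |(k : ℝ) * w| := by
      rw [abs_mul, abs_of_pos hw0]
      exact le_mul_of_one_le_left hw0.le hk1
    have hθ2 : |(k : ℝ) * w| ≤ Θ := by
      rw [abs_mul, abs_of_pos hw0]
      exact mul_le_mul_of_nonneg_right (hk2.trans (le_add_of_nonneg_right zero_le_one)) hw0.le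
    exact moment_arith hw1 hY hη₀ (le_max_right _ _) hθ1 hθ2 (norm_nonneg _)
      (((c.tr τ hτ).norm_map_le y).trans hy) (norm_nonneg _) hy (sn_nonneg _) (hMsmall τ hτ)
      (hΛ0 i) (rate_arith (hΛ0 i) hR0 (hY) hδ (hRroot i)) hiθ
  have hεsY : 0 ≤ εs * Y := by positivity
  have hη₀ε : (M + Cs + 1) * η₀ = min ε (ε ^ 2 / 2) := by
    simp only [η₀]; field_simp
  have hpair : ∀ τ ∈ c.T, ∀ (y : A) (δ : ℝ), ‖y‖ ≤ Y → 0 ≤ δ → δ ≤ εs * Y →
      (∀ r j, sn τ (br (B.z r j) y) ≤ δ) → ‖τ (y * U)‖ ≤ ε := by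
    intro τ hτ y δ hy hδ0 hδ hyz
    refine (norm_pairing_aeval_le τ T w hodd y hη₀.le fun k hk hkd =>
      hmom τ hτ y δ hy hδ0 hδ hyz k hk (hkd.trans (le_max_right _ _))).trans ?_
    calc Cs * η₀ ≤ (M + Cs + 1) * η₀ := mul_le_mul_of_nonneg_right (by linarith) hη₀.le
      _ ≤ ε := hη₀ε ▸ min_le_left _ _
  refine ⟨U, b, hUsa, hUn, hb1, hb2, hUS, hbS, ?_, ?_, ?_, ?_⟩
  · -- almost symmetry
    intro τ hτ
    have h := hMp A τ (c.tr τ hτ) T hTsa w η₀ hη₀.le fun k hk hkd => by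
      have h1 := hmom τ hτ 1 0 (by
          rcases subsingleton_or_nontrivial A with _ | _
          · rw [Subsingleton.elim (1 : A) 0, norm_zero]; linarith
          · rw [norm_one]; exact hY) le_rfl hεsY
        (fun r j => by rw [br, mul_one, one_mul, sub_self, (c.tr τ hτ).sn_zero])
        k hk (hkd.trans (le_max_left _ _))
      rwa [one_mul] at h1
    refine (sq_le_sq₀ (sn_nonneg _) hε.le).1 (h.trans ?_)
    have : M * η₀ ≤ (M + Cs + 1) * η₀ := mul_le_mul_of_nonneg_right (by linarith) hη₀.le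
    linarith [min_le_right ε (ε ^ 2 / 2)]
  · -- almost invariance
    intro h hh τ hτ
    have ht := c.tr τ hτ
    set f : A →⋆ₐ[ℂ] A := StarAlgHomClass.toStarAlgHom (c.act h)
    have hfv : ∀ r e (a : P₀), f (B.v r e (j₁ a)) = B.v r e (j₂ ⟨h, hh⟩ a) := fun r e a =>
      (pb i).act_v h _ _ rfl r e
    have hfX : ∀ a : P₀, f (B.X (j₁ a)) = B.X (j₂ ⟨h, hh⟩ a) := fun a => by
      simp only [Blocks.X, Blocks.q, ← Complex.coe_smul, map_smul, map_sum, hfv]
    have hfK : ∀ a a' : P₀, f (B.Kbar (j₁ a) (j₁ a'))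
        = B.Kbar (j₂ ⟨h, hh⟩ a) (j₂ ⟨h, hh⟩ a') := fun a a' => by
      simp only [Blocks.Kbar, Blocks.K, ← Complex.coe_smul, map_smul, map_sum, map_mul, hfv]
    set wt₂ : P → A := fun k => evA B.Kbar (π₂ ⟨h, hh⟩ k)
    have hfT : f T = lin wt₂ B.X := by
      have hw₁ : wt = pushP j₁ fun a => evA (fun s t => B.Kbar (j₁ s) (j₁ t)) (q' a) := by
        funext k
        simp only [wt, π₁, map_pushP (evA B.Kbar), evA_ren]
      have hw₂ : wt₂ = pushP (j₂ ⟨h, hh⟩) fun a =>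
          evA (fun s t => B.Kbar (j₂ ⟨h, hh⟩ s) (j₂ ⟨h, hh⟩ t)) (q' a) := by
        funext k
        simp only [wt₂, π₂, map_pushP (evA B.Kbar), evA_ren]
      simp only [T]
      rw [hw₁, hw₂, lin_pushP, lin_pushP]
      have hlin := map_lin f.toAlgHom (fun a => evA (fun s t => B.Kbar (j₁ s) (j₁ t)) (q' a))
        fun a => B.X (j₁ a)
      refine (show f _ = _ from hlin).trans ?_
      congr 1
      · funext a
        refine (map_evA f.toAlgHom _ _).trans ?_
        congr 2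
        exact funext fun s => funext fun t => hfK s t
      · exact funext fun a => hfX a
    have hfTsa : IsSelfAdjoint (f T) := hTsa.map f
    have hdiff : sn τ (f T - T) ^ 2 ≤ γ := by
      rw [hfT, ht.sn_sub_comm, ← lin_sub]
      have hΔw : (fun k => wt k - wt₂ k) = fun k => evA B.Kbar (Δ ⟨h, hh⟩ k) :=
        funext fun k => (map_sub (evA B.Kbar) _ _).symm
      rw [hΔw]
      have hs := hsoft (Δ ⟨h, hh⟩) (fun k => L₂ (⟨h, hh⟩, k))
        (fun k => ⟨hL₂0 _, hsum₂ _⟩) (fun k => hL₂ (⟨h, hh⟩, k))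
        (fun k => by
          rw [show Δ ⟨h, hh⟩ k = π₁ k - π₂ ⟨h, hh⟩ k from rfl, map_sub]
          exact (hsaπ j₁ k).sub (hsaπ _ k))
      have hg := (hΛ i A τ ht P (pb i).E (pb i).κ rfl (pb i).card_E (R i) hRn B _ hs).1
      have hq := hiΔ ⟨h, hh⟩ τ hτ
      simp only [K, evA_quadP] at hq
      have h1 := (Complex.re_le_norm _).trans ((ht.norm_map_le_sn
        (∑ a, ∑ a', evA B.Kbar (Δ ⟨h, hh⟩ a) * evA B.Kbar (Δ ⟨h, hh⟩ a') * B.Kbar a a')).trans hq)
      have h2 := (abs_le.1 hg).2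
      have h3 := hRroot i
      linarith [min_le_right (η₁ / 2) (γ / 4)]
    have hact : c.act h U = aeval (sinEl (f T) w) p := by
      rw [← map_sinEl f T w]
      exact (Polynomial.aeval_algHom_apply (f.toAlgHom.restrictScalars ℝ) _ _).symm
    rw [hact]
    refine (ht.sn_aeval_sub_le (norm_sinEl_le hfTsa w) (norm_sinEl_le hTsa w) p).trans ?_
    refine (mul_le_mul_of_nonneg_left (sn_sinEl_sub_le hLip ht hfTsa hTsa w) hLp).trans ?_
    have h1 : sn τ (f T - T) ≤ ε / ((Lp + 1) * w) :=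
      (sq_le_sq₀ (sn_nonneg _) (by positivity)).1 hdiff
    rw [abs_of_pos hw0]
    calc Lp * (w * sn τ (f T - T)) ≤ (Lp + 1) * (w * (ε / ((Lp + 1) * w))) := by
          gcongr
          · exact mul_nonneg hw0.le (sn_nonneg _)
          · linarith
      _ = ε := by field_simp
  · -- fairness
    intro τ hτ s hs
    refine hpair τ hτ s 0 (hsY s hs) le_rfl hεsY fun r j => ?_
    rw [br, ((pb i).comm_z r j s (hS' hs)).eq, sub_self, (c.tr τ hτ).sn_zero]
  · -- orthogonality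
    intro τ hτ s hs
    have ht := c.tr τ hτ
    have h : τ (s * (U * Q)) = τ (Q * s * U) := by
      rw [← mul_assoc, ht.comm, ← mul_assoc]
    rw [(hQ τ hτ).2 s (hS' hs), h]
    refine hpair τ hτ (Q * s) (εs * Y)
      ((norm_mul_le _ _).trans ((mul_le_of_le_one_left (norm_nonneg _) hQn).trans (hsY s hs)))
      hεsY le_rfl fun r j => ?_
    have he : br (B.z r j) (Q * s) = br (B.z r j) Q * s := by
      rw [br_mul, show br (B.z r j) s = 0 from sub_eq_zero.2 ((pb i).comm_z r j s (hS' hs)).eq,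
        mul_zero, add_zero]
    rw [he]
    exact (ht.sn_mul_le_right _ _).trans (mul_le_mul
      ((hQ τ hτ).1 _ (Finset.mem_image.2 ⟨(r, j), Finset.mem_univ _, rfl⟩)) (hsY s hs)
      (norm_nonneg _) hεs.le)

/-- Stage 1. -/
theorem stage1_of (hW : WeightsStatement.{v}) (hA : AsympStatement.{u, v})
    (hGa : GaussStatement.{u, v}) (hSw : SweepStatement.{u, v}) (hLip : ExpLipStatement.{u})
    (hPB : PairBlocksStatement.{u, v}) (hOdd : OddStatement.{u, v}) :
    Stage1Statement.{u, v} := by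
  intro G _ _ A _ c hG
  exact hOdd G A c fun S hS => c.saturate S hS fun S' hS' E ε hε =>
    exists_approx hW hA hGa hSw hLip hPB c hG hS S' hS' E hε

end Vale.Agent.P095
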