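import Mathlib
import Vale.Agent.P095.Stage1.Defs
import Vale.Agent.P095.Basic

/-!
From exact pairs to odd pairs: the odd part of the unitary, made self-adjoint by a fresh unit.
-/

noncomputable section

namespace Vale.Agent.P095

universe u v

variable {A : Type u} [CStarAlgebra A]

/-- A self-adjoint symmetry has norm at most one. -/
lemma norm_le_one_of_symm {z : A} (hza : IsSelfAdjoint z) (hz : z * z = 1) : ‖z‖ ≤ 1 := by
  refine (sq_le_one_iff₀ (norm_nonneg z)).1 ?_
  rw [sq, ← CStarRing.norm_star_mul_self, hza.star_eq, hz]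
  rcases subsingleton_or_nontrivial A with _ | _
  · rw [Subsingleton.elim (1 : A) 0, norm_zero]; exact zero_le_one
  · rw [norm_one]

/-- A unitary has norm at most one. -/
lemma norm_le_one_of_unit {b : A} (hb : star b * b = 1) : ‖b‖ ≤ 1 := by
  refine (sq_le_one_iff₀ (norm_nonneg b)).1 ?_
  rw [sq, ← CStarRing.norm_star_mul_self, hb]
  rcases subsingleton_or_nontrivial A with _ | _
  · rw [Subsingleton.elim (1 : A) 0, norm_zero]; exact zero_le_one
  · rw [norm_one]

/-- The trace of a symmetry against something commuting with a flip of it vanishes. -/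
lemma IsTr.map_mul_eq_zero_of_flip {τ : A →ₗ[ℂ] ℂ} (hτ : IsTr τ) {x z w : A} (hz : z * z = 1)
    (hxz : x * z = -(z * x)) (hw : Commute z w) : τ (x * w) = 0 := by
  have h : τ (x * w) = -τ (x * w) := by
    calc τ (x * w) = τ (z * (z * x * w)) := by rw [← mul_assoc, ← mul_assoc, hz, one_mul]
      _ = τ (z * x * w * z) := hτ.comm _ _
      _ = τ (z * x * z * w) := by rw [mul_assoc (z * x) w, ← hw.eq, ← mul_assoc]
      _ = τ (-(z * z * x) * w) := by rw [mul_assoc z x z, hxz]; simp [mul_assoc]
      _ = -τ (x * w) := by rw [hz, one_mul, neg_mul, map_neg]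
  exact add_self_eq_zero.1 (eq_neg_iff_add_eq_zero.1 h)

/-- From exact pairs to odd pairs. -/
theorem odd_ok : OddStatement.{u, v} := by
  intro G _ _ A _ c hex S hS
  obtain ⟨U, b, hp⟩ := hex S hS
  obtain ⟨x, z, xsa, zsa, hx, hz, hxz, hcomm⟩ :=
    c.units (S ∪ {U, b, star b}) (hS.union (Set.toFinite _).countable)
  have hsb : ∀ s ∈ S, Commute (star b) s := fun s hs => by
    show star b * s = s * star b
    calc star b * s = star b * (s * (b * star b)) := by rw [hp.unit_right, mul_one]
      _ = star b * (b * s) * star b := by rw [(hp.comm_b s hs).eq]; noncomm_ring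
      _ = s * star b := by rw [← mul_assoc (star b), hp.unit_left, one_mul]
  set o₀ : A := (2⁻¹ : ℝ) • (b - U * b * U) with ho₀
  set e : A := (2⁻¹ : ℝ) • (1 + x) with he
  set m : A := e * z with hm
  have hUU := hp.sq
  have hsU : star U = U := hp.sa
  have hUo : U * o₀ = -(o₀ * U) := by
    rw [ho₀, mul_smul_comm, smul_mul_assoc, ← smul_neg]
    congr 1
    rw [mul_sub, sub_mul, neg_sub, show U * (U * b * U) = (U * U) * b * U by noncomm_ring,
      show U * b * U * U = U * b * (U * U) by noncomm_ring, hUU, one_mul, mul_one]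
  have hso : star o₀ = (2⁻¹ : ℝ) • (star b - U * star b * U) := by
    simp [ho₀, star_smul, hsU, mul_assoc]
  have hUso : U * star o₀ = -(star o₀ * U) := by
    have h2 := congrArg star hUo
    rw [star_mul, star_neg, star_mul, hsU] at h2
    rw [h2, neg_neg]
  have comm_o₀ : ∀ w, Commute w U → Commute w b → Commute w (star b) →
      Commute w o₀ ∧ Commute w (star o₀) := by
    intro w h1 h2 h3
    rw [hso, ho₀]
    exact ⟨((h2.sub_right ((h1.mul_right h2).mul_right h1))).smul_right _,
      ((h3.sub_right ((h1.mul_right h3).mul_right h1))).smul_right _⟩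
  obtain ⟨hxU, hzU⟩ := hcomm U (by simp)
  obtain ⟨hxb, hzb⟩ := hcomm b (by simp)
  obtain ⟨hxb', hzb'⟩ := hcomm (star b) (by simp)
  obtain ⟨hxo, hxo'⟩ := comm_o₀ x hxU hxb hxb'
  obtain ⟨hzo, hzo'⟩ := comm_o₀ z hzU hzb hzb'
  have hse : star e = e := by simp [he, star_smul, xsa.star_eq]
  have hsm : star m = z * e := by rw [hm, star_mul, hse, zsa.star_eq]
  have hze : z * e = (1 - e) * z := by
    rw [he, mul_smul_comm, mul_add, mul_one, sub_mul, one_mul, smul_mul_assoc, add_mul, one_mul]
    rw [show z * x = -(x * z) by rw [hxz, neg_neg]]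
    module
  have hee : e * e = e := by
    rw [he, smul_mul_smul_comm, add_mul, mul_add, mul_add, one_mul, one_mul, mul_one, hx]
    module
  have h1e : (1 - e) * e = 0 := by rw [sub_mul, one_mul, hee, sub_self]
  have hmm : m * m = 0 := by
    rw [hm, show e * z * (e * z) = e * (z * e) * z by noncomm_ring, hze, ← mul_assoc, mul_sub,
      mul_one, hee, sub_self, zero_mul, zero_mul]
  have hsmm : star m * star m = 0 := by rw [← star_mul, hmm, star_zero]
  have hmsm : m * star m = e := by
    rw [hsm, hm, show e * z * (z * e) = e * (z * z) * e by noncomm_ring, hz, mul_one, hee]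
  have hsmm' : star m * m = 1 - e := by
    rw [hsm, hm, show z * e * (e * z) = z * (e * e) * z by noncomm_ring, hee, hze, mul_assoc, hz,
      mul_one]
  have hm_comm : ∀ w, Commute x w → Commute z w → Commute m w ∧ Commute (star m) w := by
    intro w h1 h2
    have he' : Commute e w := by rw [he]; exact ((Commute.one_left w).add_left h1).smul_left _
    exact ⟨by rw [hm]; exact he'.mul_left h2, by rw [hsm]; exact h2.mul_left he'⟩
  set o : A := m * o₀ + star m * star o₀ with ho
  obtain ⟨hmo, hm'o⟩ := hm_comm o₀ hxo hzo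
  obtain ⟨hmo', hm'o'⟩ := hm_comm (star o₀) hxo' hzo'
  obtain ⟨hmU, hm'U⟩ := hm_comm U hxU hzU
  have hoo : o * o = e * (o₀ * star o₀) + (1 - e) * (star o₀ * o₀) := by
    rw [ho, add_mul, mul_add, mul_add]
    rw [show m * o₀ * (m * o₀) = m * (o₀ * m) * o₀ by noncomm_ring, ← hmo.eq, ← mul_assoc m m, hmm]
    rw [show m * o₀ * (star m * star o₀) = m * (o₀ * star m) * star o₀ by noncomm_ring, ← hm'o.eq,
      ← mul_assoc m (star m), hmsm]
    rw [show star m * star o₀ * (m * o₀) = star m * (star o₀ * m) * o₀ by noncomm_ring, ← hmo'.eq,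
      ← mul_assoc (star m) m, hsmm']
    rw [show star m * star o₀ * (star m * star o₀) = star m * (star o₀ * star m) * star o₀ by
      noncomm_ring, ← hm'o'.eq, ← mul_assoc (star m) (star m), hsmm]
    noncomm_ring
  have no₀ : ‖o₀‖ ≤ 1 := by
    have hU := norm_le_one_of_symm hp.sa hUU
    have hb := norm_le_one_of_unit hp.unit_left
    rw [ho₀, norm_smul]
    have h2 : ‖U * b * U‖ ≤ 1 :=
      (norm_mul_le _ _).trans (mul_le_one₀ ((norm_mul_le _ _).trans (mul_le_one₀ hU (norm_nonneg _) hb))
        (norm_nonneg _) hU)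
    calc ‖(2⁻¹ : ℝ)‖ * ‖b - U * b * U‖ ≤ ‖(2⁻¹ : ℝ)‖ * 2 :=
          mul_le_mul_of_nonneg_left ((norm_sub_le _ _).trans (by linarith)) (norm_nonneg _)
      _ = 1 := by norm_num
  have nm : ‖m‖ ≤ 1 := by
    have hzn := norm_le_one_of_symm zsa hz
    have hen : ‖e‖ ≤ 1 := by
      have hxn := norm_le_one_of_symm xsa hx
      have h1n : ‖(1 : A)‖ ≤ 1 := norm_le_one_of_unit (b := (1 : A)) (by simp)
      rw [he, norm_smul]
      calc ‖(2⁻¹ : ℝ)‖ * ‖(1 : A) + x‖ ≤ ‖(2⁻¹ : ℝ)‖ * 2 :=
            mul_le_mul_of_nonneg_left ((norm_add_le _ _).trans (by linarith)) (norm_nonneg _)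
        _ = 1 := by norm_num
    exact (norm_mul_le _ _).trans (mul_le_one₀ hen (norm_nonneg _) hzn)
  refine ⟨U, o, ⟨hp.sa, ?_, hUU, ?_, ?_, hp.inv, hp.comm_U, ?_, hp.fair, ?_⟩⟩
  · show star o = o
    rw [ho, star_add, star_mul m o₀, star_mul (star m) (star o₀), star_star, star_star, ← hm'o'.eq,
      ← hmo.eq, add_comm]
  · refine (norm_add_le _ _).trans ?_
    have h1 : ‖m * o₀‖ ≤ 1 := (norm_mul_le _ _).trans (mul_le_one₀ nm (norm_nonneg _) no₀)
    have h2 : ‖star m * star o₀‖ ≤ 1 := (norm_mul_le _ _).trans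
      (mul_le_one₀ (by rwa [norm_star]) (norm_nonneg _) (by rwa [norm_star]))
    linarith
  · rw [ho, mul_add, add_mul, ← mul_assoc U m, ← hmU.eq, mul_assoc m U, hUo,
      ← mul_assoc U (star m), ← hm'U.eq, mul_assoc (star m) U, hUso]
    noncomm_ring
  · intro s hs
    obtain ⟨hxs, hzs⟩ := hcomm s (Or.inl hs)
    obtain ⟨hms, hm's⟩ := hm_comm s hxs hzs
    obtain ⟨hso₁, hso₂⟩ := comm_o₀ s (hp.comm_U s hs).symm (hp.comm_b s hs).symm (hsb s hs).symm
    exact ((hms.mul_left hso₁.symm).add_left (hm's.mul_left hso₂.symm))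
  · intro τ hτ y hy
    have T := c.tr τ hτ
    obtain ⟨hxy, hzy⟩ := hcomm y (Or.inl hy)
    have yU := (hp.comm_U y hy).symm
    have yb := (hp.comm_b y hy).symm
    have key : ∀ w, Commute z w → Commute y w → τ (y * (e * w)) = τ (y * w) / 2 ∧
        τ (y * ((1 - e) * w)) = τ (y * w) / 2 := by
      intro w hw _
      have h0 : τ (y * (x * w)) = 0 := by
        rw [← mul_assoc, ← hxy.eq, mul_assoc]
        exact T.map_mul_eq_zero_of_flip hz hxz (hzy.mul_right hw)
      have h1 : τ (y * (e * w)) = τ (y * w) / 2 := by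
        rw [he, smul_mul_assoc, mul_smul_comm, ← Complex.coe_smul, map_smul, add_mul, one_mul,
          mul_add, map_add, h0, add_zero, smul_eq_mul]
        push_cast
        ring
      refine ⟨h1, ?_⟩
      rw [sub_mul, one_mul, mul_sub, map_sub, h1]
      ring
    obtain ⟨hyo, hyo'⟩ := comm_o₀ y yU yb (hsb y hy).symm
    have horth := hp.orth τ hτ y hy
    have a1 : τ (y * (b * U * star b * U)) = 0 := by
      calc τ (y * (b * U * star b * U)) = τ (y * b * U * star b * U) := by simp only [mul_assoc]
        _ = τ (U * (y * b * U * star b)) := T.comm _ _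
        _ = τ (U * y * b * U * star b) := by simp only [mul_assoc]
        _ = τ (y * (U * b * U * star b)) := by rw [← yU.eq]; simp only [mul_assoc]
        _ = 0 := horth
    have a2 : τ (y * (star b * U * b * U)) = 0 := by
      calc τ (y * (star b * U * b * U)) = τ (y * star b * (U * b * U)) := by simp only [mul_assoc]
        _ = τ (star b * (y * U * b * U)) := by rw [← (hsb y hy).eq]; simp only [mul_assoc]
        _ = τ (y * U * b * U * star b) := T.comm _ _
        _ = τ (y * (U * b * U * star b)) := by simp only [mul_assoc]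
        _ = 0 := horth
    have a3 : τ (y * (U * star b * U * b)) = 0 := by
      calc τ (y * (U * star b * U * b)) = τ (y * U * star b * U * b) := by simp only [mul_assoc]
        _ = τ (b * (y * U * star b * U)) := T.comm _ _
        _ = τ (b * y * U * star b * U) := by simp only [mul_assoc]
        _ = τ (y * (b * U * star b * U)) := by rw [← yb.eq]; simp only [mul_assoc]
        _ = 0 := a1
    have e1 : o₀ * star o₀ = (4⁻¹ : ℝ) • ((2 : ℝ) • (1 : A) - b * U * star b * U - U * b * U * star b) := by
      rw [hso, ho₀, smul_mul_smul_comm, sub_mul, mul_sub, mul_sub, hp.unit_right,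
        show U * b * U * (U * star b * U) = U * (b * (U * U) * star b) * U by noncomm_ring, hUU,
        mul_one, hp.unit_right, mul_one, hUU]
      simp only [← mul_assoc]
      module
    have e2 : star o₀ * o₀ = (4⁻¹ : ℝ) • ((2 : ℝ) • (1 : A) - star b * U * b * U - U * star b * U * b) := by
      rw [hso, ho₀, smul_mul_smul_comm, sub_mul, mul_sub, mul_sub, hp.unit_left,
        show U * star b * U * (U * b * U) = U * (star b * (U * U) * b) * U by noncomm_ring, hUU,
        mul_one, hp.unit_left, mul_one, hUU]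
      simp only [← mul_assoc]
      module
    have v1 : τ (y * (o₀ * star o₀)) = τ y / 2 := by
      rw [e1, mul_smul_comm, ← Complex.coe_smul, map_smul, mul_sub, mul_sub, map_sub, map_sub, a1,
        horth, mul_smul_comm, mul_one, ← Complex.coe_smul, map_smul, smul_eq_mul, smul_eq_mul]
      push_cast
      ring
    have v2 : τ (y * (star o₀ * o₀)) = τ y / 2 := by
      rw [e2, mul_smul_comm, ← Complex.coe_smul, map_smul, mul_sub, mul_sub, map_sub, map_sub, a2,
        a3, mul_smul_comm, mul_one, ← Complex.coe_smul, map_smul, smul_eq_mul, smul_eq_mul]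
      push_cast
      ring
    rw [hoo, mul_add, map_add, (key _ (hzo.mul_right hzo') (hyo.mul_right hyo')).1,
      (key _ (hzo'.mul_right hzo) (hyo'.mul_right hyo)).2, v1, v2]
    ring

end Vale.Agent.P095
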