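import Mathlib
import Vale.Agent.P095.Stage1.Defs
import Vale.Agent.P095.Stage1.Odd
import Vale.Agent.P095.Basic

/-!
The blocks of Stage 1: fresh units taken one after the other, their translates, and the products
over pairs inside one block.
-/

noncomputable section

open Filter Topology Finset
open scoped CStarAlgebra

namespace Vale.Agent.P095

universe u v

attribute [local instance] CStarAlgebra.spectralOrder CStarAlgebra.spectralOrderedRing

variable {G : Type v} [Group G] {A : Type u} [CStarAlgebra A]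

/-- A sequence of units each of which commutes with all translates of the others. -/
structure FreshUnits (c : Cfg G A) (S : Set A) (n : ℕ) where
  x : Fin n → A
  z : Fin n → A
  sax : ∀ i, IsSelfAdjoint (x i)
  saz : ∀ i, IsSelfAdjoint (z i)
  xx : ∀ i, x i * x i = 1
  zz : ∀ i, z i * z i = 1
  anti : ∀ i, x i * z i = -(z i * x i)
  commS : ∀ i g, ∀ s ∈ S, Commute (c.act g (x i)) s ∧ Commute (c.act g (z i)) s
  comm : ∀ i j, i ≠ j → ∀ g h, Commute (c.act g (x i)) (c.act h (x j)) ∧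
    Commute (c.act g (x i)) (c.act h (z j)) ∧ Commute (c.act g (z i)) (c.act h (z j))

theorem Cfg.act_inv (c : Cfg G A) (g : G) (x : A) : c.act g (c.act g⁻¹ x) = x := by
  rw [← c.act_mul, mul_inv_cancel, c.act_one]

theorem Cfg.comm_act (c : Cfg G A) {x y : A} (g h : G) (hc : Commute x (c.act (g⁻¹ * h) y)) :
    Commute (c.act g x) (c.act h y) := by
  have h2 := hc.map (c.act g)
  rwa [← c.act_mul, mul_inv_cancel_left] at h2

theorem exists_freshUnits [Countable G] (c : Cfg G A) {S : Set A} (hS : S.Countable) :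
    ∀ n, Nonempty (FreshUnits c S n)
  | 0 => ⟨⟨Fin.elim0, Fin.elim0, fun i => i.elim0, fun i => i.elim0, fun i => i.elim0,
      fun i => i.elim0, fun i => i.elim0, fun i => i.elim0, fun i => i.elim0⟩⟩
  | n + 1 => by
    obtain ⟨F⟩ := exists_freshUnits c hS n
    set S' : Set A := (⋃ g : G, c.act g '' S) ∪
      ((Set.range fun p : G × Fin n => c.act p.1 (F.x p.2)) ∪
        Set.range fun p : G × Fin n => c.act p.1 (F.z p.2))
    have hS' : S'.Countable := (Set.countable_iUnion fun g => hS.image _).union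
      ((Set.countable_range _).union (Set.countable_range _))
    obtain ⟨x, z, sax, saz, xx, zz, anti, hcom⟩ := c.units S' hS'
    have hold : ∀ i g h, (Commute (c.act g x) (c.act h (F.x i)) ∧
        Commute (c.act g x) (c.act h (F.z i))) ∧
        Commute (c.act g z) (c.act h (F.x i)) ∧ Commute (c.act g z) (c.act h (F.z i)) := fun i g h =>
      ⟨⟨c.comm_act g h (hcom _ (Or.inr (Or.inl ⟨(g⁻¹ * h, i), rfl⟩))).1,
        c.comm_act g h (hcom _ (Or.inr (Or.inr ⟨(g⁻¹ * h, i), rfl⟩))).1⟩,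
      c.comm_act g h (hcom _ (Or.inr (Or.inl ⟨(g⁻¹ * h, i), rfl⟩))).2,
        c.comm_act g h (hcom _ (Or.inr (Or.inr ⟨(g⁻¹ * h, i), rfl⟩))).2⟩
    have hs : ∀ g, ∀ s ∈ S, Commute (c.act g x) s ∧ Commute (c.act g z) s := by
      intro g s hs
      have h1 := hcom (c.act g⁻¹ s) (Or.inl (Set.mem_iUnion.2 ⟨g⁻¹, s, hs, rfl⟩))
      have h2 := h1.1.map (c.act g)
      have h3 := h1.2.map (c.act g)
      rw [c.act_inv] at h2 h3
      exact ⟨h2, h3⟩
    refine ⟨⟨Fin.snoc F.x x, Fin.snoc F.z z, ?_, ?_, ?_, ?_, ?_, ?_, ?_⟩⟩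
    · exact Fin.lastCases (by simpa using sax) fun i => by simpa using F.sax i
    · exact Fin.lastCases (by simpa using saz) fun i => by simpa using F.saz i
    · exact Fin.lastCases (by simpa using xx) fun i => by simpa using F.xx i
    · exact Fin.lastCases (by simpa using zz) fun i => by simpa using F.zz i
    · exact Fin.lastCases (by simpa using anti) fun i => by simpa using F.anti i
    · exact Fin.lastCases (fun g s h => by simpa using hs g s h)
        fun i g s h => by simpa using F.commS i g s h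
    · intro i j
      induction i using Fin.lastCases with
      | last =>
        induction j using Fin.lastCases with
        | last => exact fun h => absurd rfl h
        | cast j =>
          intro _ g h
          simpa using ⟨(hold j g h).1.1, (hold j g h).1.2, (hold j g h).2.2⟩
      | cast i =>
        induction j using Fin.lastCases with
        | last =>
          intro _ g h
          simpa using ⟨(hold i h g).1.1.symm, (hold i h g).2.1.symm, (hold i h g).2.2.symm⟩
        | cast j =>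
          intro hij g h
          simpa using F.comm i j (fun e => hij (by rw [e])) g h

/-- Ordered pairs inside one block. -/
abbrev PairIdx (N : ℕ) : Type := {p : Fin N × Fin N // p.1 < p.2}

/-- Twice the sum over ordered pairs, and the diagonal, is the square of the sum. -/
theorem sum_pairs {M : Type*} [Semiring M] {N : ℕ} (f : Fin N → M)
    (hf : ∀ k l, k ≠ l → Commute (f k) (f l)) :
    2 * ∑ e : PairIdx N, f e.1.1 * f e.1.2 + ∑ k, f k * f k = (∑ k, f k) * ∑ k, f k := by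
  set h : Fin N × Fin N → M := fun p => f p.1 * f p.2
  have hlt : ∑ e : PairIdx N, h e.1 = ∑ p ∈ univ.filter (fun p : Fin N × Fin N => p.1 < p.2), h p :=
    (Finset.sum_subtype _ (fun p => by simp) h).symm
  have hgt : ∑ p ∈ univ.filter (fun p : Fin N × Fin N => p.2 < p.1), h p =
      ∑ p ∈ univ.filter (fun p : Fin N × Fin N => p.1 < p.2), h p := by
    refine sum_nbij' Prod.swap Prod.swap (by simp) (by simp) (by simp) (by simp) fun p hp => ?_
    simp only [mem_filter, mem_univ, true_and] at hp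
    exact (hf _ _ hp.ne').eq
  have heq : ∑ p ∈ univ.filter (fun p : Fin N × Fin N => p.1 = p.2), h p = ∑ k, f k * f k :=
    sum_nbij' (fun p => p.1) (fun k => (k, k)) (by simp) (by simp)
      (fun p hp => by
        simp only [mem_filter, mem_univ, true_and] at hp
        exact Prod.ext rfl hp)
      (by simp) fun p hp => by
        simp only [mem_filter, mem_univ, true_and] at hp
        simp only [h, ← hp]
  rw [sum_mul_sum, ← Fintype.sum_prod_type' (f := fun i j => f i * f j),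
    ← sum_filter_add_sum_filter_not univ (fun p : Fin N × Fin N => p.1 < p.2) h,
    ← sum_filter_add_sum_filter_not (univ.filter fun p : Fin N × Fin N => ¬p.1 < p.2)
      (fun p => p.1 = p.2) h, filter_filter, filter_filter]
  rw [show (univ.filter fun p : Fin N × Fin N => ¬p.1 < p.2 ∧ p.1 = p.2) =
      univ.filter (fun p => p.1 = p.2) by
    ext p; simp only [mem_filter, mem_univ, true_and]; exact ⟨fun q => q.2, fun q => ⟨q ▸ lt_irrefl _, q⟩⟩,
    show (univ.filter fun p : Fin N × Fin N => ¬p.1 < p.2 ∧ ¬p.1 = p.2) =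
      univ.filter (fun p => p.2 < p.1) by
    ext p; simp only [mem_filter, mem_univ, true_and]
    exact ⟨fun q => lt_of_le_of_ne (not_lt.1 q.1) (Ne.symm q.2), fun q => ⟨not_lt.2 q.le, q.ne'⟩⟩,
    hgt, heq, hlt, two_mul]
  abel

theorem card_pairIdx (N : ℕ) : Fintype.card (PairIdx N) = N.choose 2 := by
  have h := sum_pairs (fun _ : Fin N => (1 : ℕ)) fun _ _ _ => Commute.one_left _
  simp only [mul_one, Finset.sum_const, Finset.card_univ, Fintype.card_fin, smul_eq_mul] at h
  rw [Nat.choose_two_right, Nat.mul_sub_one]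
  omega

variable {c : Cfg G A} {S : Set A} {P : Finset G} {N R : ℕ}

namespace FreshUnits

variable (F : FreshUnits c S (R * N))

/-- The translate of a unit of one block. -/
def xa (r : Fin R) (k : Fin N) (g : G) : A := c.act g (F.x (finProdFinEquiv (r, k)))

/-- The translate of a flip of one block. -/
def za (r : Fin R) (k : Fin N) (g : G) : A := c.act g (F.z (finProdFinEquiv (r, k)))

theorem ne_idx {r s : Fin R} {k l : Fin N} (h : r ≠ s ∨ k ≠ l) :
    finProdFinEquiv (r, k) ≠ finProdFinEquiv (s, l) := fun e => by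
  have := finProdFinEquiv.injective e
  simp only [Prod.mk.injEq] at this
  tauto

theorem comm_xx {r s : Fin R} {k l : Fin N} (h : r ≠ s ∨ k ≠ l) (g g' : G) :
    Commute (F.xa r k g) (F.xa s l g') := (F.comm _ _ (ne_idx h) g g').1

theorem comm_xz {r s : Fin R} {k l : Fin N} (h : r ≠ s ∨ k ≠ l) (g g' : G) :
    Commute (F.xa r k g) (F.za s l g') := (F.comm _ _ (ne_idx h) g g').2.1

theorem sa_xa (r : Fin R) (k : Fin N) (g : G) : IsSelfAdjoint (F.xa r k g) := (F.sax _).map _

theorem sa_za (r : Fin R) (k : Fin N) (g : G) : IsSelfAdjoint (F.za r k g) := (F.saz _).map _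

theorem xa_sq (r : Fin R) (k : Fin N) (g : G) : F.xa r k g * F.xa r k g = 1 := by
  rw [xa, ← map_mul, F.xx, map_one]

theorem za_sq (r : Fin R) (k : Fin N) (g : G) : F.za r k g * F.za r k g = 1 := by
  rw [za, ← map_mul, F.zz, map_one]

theorem za_xa (r : Fin R) (k : Fin N) (g : G) : F.za r k g * F.xa r k g = -(F.xa r k g * F.za r k g) := by
  rw [za, xa, ← map_mul, ← map_mul, F.anti, map_neg, neg_neg]

theorem norm_xa (r : Fin R) (k : Fin N) (g : G) : ‖F.xa r k g‖ ≤ 1 :=
  norm_le_one_of_symm (F.sa_xa r k g) (F.xa_sq r k g)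

theorem norm_za (r : Fin R) (k : Fin N) (g : G) : ‖F.za r k g‖ ≤ 1 :=
  norm_le_one_of_symm (F.sa_za r k g) (F.za_sq r k g)

/-- The summand of a pair. -/
def pr (r : Fin R) (e : ULift.{v} (PairIdx N)) (a : P) : A :=
  F.xa r e.down.1.1 a * F.xa r e.down.1.2 a

theorem comm_pr (r : Fin R) (e : ULift.{v} (PairIdx N)) (a : P) :
    Commute (F.xa r e.down.1.1 a) (F.xa r e.down.1.2 a) := F.comm_xx (Or.inr e.down.2.ne) _ _

theorem sa_pr (r : Fin R) (e : ULift.{v} (PairIdx N)) (a : P) : IsSelfAdjoint (F.pr r e a) := by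
  show star _ = _
  rw [pr, star_mul, (F.sa_xa _ _ _).star_eq, (F.sa_xa _ _ _).star_eq, (F.comm_pr r e a).eq]

theorem pr_sq (r : Fin R) (e : ULift.{v} (PairIdx N)) (a : P) : F.pr r e a * F.pr r e a = 1 := by
  rw [pr, mul_assoc, ← mul_assoc (F.xa r e.down.1.2 a), ← (F.comm_pr r e a).eq, mul_assoc,
    F.xa_sq, mul_one, F.xa_sq]

theorem norm_pr (r : Fin R) (e : ULift.{v} (PairIdx N)) (a : P) : ‖F.pr r e a‖ ≤ 1 :=
  norm_le_one_of_symm (F.sa_pr r e a) (F.pr_sq r e a)

theorem anti_pr (r : Fin R) (e : ULift.{v} (PairIdx N)) (a : P) (k : Fin N)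
    (hk : k = e.down.1.1 ∨ k = e.down.1.2) :
    F.za r k a * F.pr r e a = -(F.pr r e a * F.za r k a) := by
  rcases hk with rfl | rfl
  · rw [pr, ← mul_assoc, F.za_xa, neg_mul, mul_assoc,
      ← (F.comm_xz (Or.inr e.down.2.ne') _ _).eq, ← mul_assoc]
  · rw [pr, ← mul_assoc, ← (F.comm_xz (Or.inr e.down.2.ne) _ _).eq, mul_assoc, F.za_xa, mul_neg,
      ← mul_assoc]

theorem comm_za_pr (r : Fin R) (e : ULift.{v} (PairIdx N)) (a : P) (g : G) (k : Fin N)
    (hk : k ≠ e.down.1.1) (hk' : k ≠ e.down.1.2) : Commute (F.za r k g) (F.pr r e a) :=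
  (F.comm_xz (Or.inr hk.symm) _ _).symm.mul_right (F.comm_xz (Or.inr hk'.symm) _ _).symm

/-- The blocks. -/
def blocks : Blocks A P (ULift.{v} (PairIdx N)) (ULift.{v} (Fin N) × P) R 1 where
  v := F.pr
  z r j := F.za r j.1.down j.2
  sa := F.sa_pr
  norm_v := F.norm_pr
  z_sa r j := F.sa_za _ _ _
  z_sq r j := F.za_sq _ _ _
  comm_vv r s hrs e a f b :=
    ((F.comm_xx (Or.inl hrs) _ _).mul_right (F.comm_xx (Or.inl hrs) _ _)).mul_left
      ((F.comm_xx (Or.inl hrs) _ _).mul_right (F.comm_xx (Or.inl hrs) _ _))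
  comm_zv r s hrs j f b :=
    (F.comm_xz (Or.inl (Ne.symm hrs)) _ _).symm.mul_right (F.comm_xz (Or.inl (Ne.symm hrs)) _ _).symm
  single r e a := ⟨(⟨e.down.1.1⟩, a), F.anti_pr r e a _ (Or.inl rfl)⟩
  pair r e f a b hef := Or.inr <| by
    obtain ⟨⟨⟨k, l⟩, hkl⟩⟩ := e
    obtain ⟨⟨⟨k', l'⟩, hkl'⟩⟩ := f
    by_cases h1 : k = k' ∨ k = l'
    · refine ⟨(⟨l⟩, a), F.anti_pr r _ a _ (Or.inr rfl), F.comm_za_pr r _ b a l ?_ ?_⟩
      · simp only at hkl hkl' ⊢
        rcases h1 with h | h
        · intro e; rw [h, e] at hkl; exact lt_irrefl _ hkl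
        · intro e; rw [h, e] at hkl; exact lt_asymm hkl hkl'
      · simp only at hkl hkl' ⊢
        rcases h1 with h | h
        · intro e; exact hef (by subst h e; rfl)
        · intro e; rw [h, e] at hkl; exact lt_irrefl _ hkl
    · push Not at h1
      exact ⟨(⟨k⟩, a), F.anti_pr r _ a _ (Or.inl rfl), F.comm_za_pr r _ b a k h1.1 h1.2⟩

/-- The product of two translates of one unit. -/
def p (r : Fin R) (a b : P) (k : Fin N) : A := F.xa r k a * F.xa r k b

theorem comm_p (r : Fin R) (a b : P) {k l : Fin N} (h : k ≠ l) :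
    Commute (F.p r a b k) (F.p r a b l) :=
  ((F.comm_xx (Or.inr h) _ _).mul_right (F.comm_xx (Or.inr h) _ _)).mul_left
    ((F.comm_xx (Or.inr h) _ _).mul_right (F.comm_xx (Or.inr h) _ _))

theorem star_p (r : Fin R) (a b : P) (k : Fin N) : star (F.p r a b k) = F.p r b a k := by
  rw [p, p, star_mul, (F.sa_xa _ _ _).star_eq, (F.sa_xa _ _ _).star_eq]

theorem norm_p (r : Fin R) (a b : P) (k : Fin N) : ‖F.p r a b k‖ ≤ 1 :=
  (norm_mul_le _ _).trans (mul_le_one₀ (F.norm_xa r k a) (norm_nonneg _) (F.norm_xa r k b))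

theorem pr_mul_pr (r : Fin R) (e : ULift.{v} (PairIdx N)) (a b : P) :
    F.pr r e a * F.pr r e b = F.p r a b e.down.1.1 * F.p r a b e.down.1.2 := by
  rw [pr, pr, p, p, mul_assoc, ← mul_assoc (F.xa r e.down.1.2 a),
    (F.comm_xx (Or.inr e.down.2.ne') _ _).eq]
  noncomm_ring

/-- The sum of the products in one block. -/
def P1 (r : Fin R) (a b : P) : A := ∑ k, F.p r a b k

theorem sn_P1_sub_le {τ : A →ₗ[ℂ] ℂ} (hτ : τ ∈ c.T) (r : Fin R) (a b : P) :
    sn τ (F.P1 r a b - star (F.P1 r a b)) ≤ 2 * Real.sqrt N := by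
  have T := c.tr τ hτ
  set d : Fin N → A := fun k => F.p r a b k - F.p r b a k
  have e : F.P1 r a b - star (F.P1 r a b) = ∑ k, d k := by
    simp only [P1, star_sum, F.star_p, d, Finset.sum_sub_distrib]
  have hz : ∀ k l, k ≠ l → τ (star (d k) * d l) = 0 := by
    intro k l hkl
    have hc : ∀ g, Commute (star (d k)) (F.xa r l g) := fun g => by
      simp only [d, star_sub, F.star_p]
      exact ((F.comm_xx (Or.inr hkl) _ _).mul_left (F.comm_xx (Or.inr hkl) _ _)).sub_left
        ((F.comm_xx (Or.inr hkl) _ _).mul_left (F.comm_xx (Or.inr hkl) _ _))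
    show τ (star (d k) * (F.xa r l a * F.xa r l b - F.xa r l b * F.xa r l a)) = 0
    rw [mul_sub, map_sub, ← mul_assoc, (hc a).eq, mul_assoc, T.comm, mul_assoc, sub_self]
  have hd : ∀ k, sn τ (d k) ≤ 2 := fun k =>
    (T.sn_le_norm _).trans ((norm_sub_le _ _).trans (by linarith [F.norm_p r a b k, F.norm_p r b a k]))
  rw [e]
  refine Real.sqrt_le_iff.2 ⟨by positivity, ?_⟩
  have h : τ (star (∑ k, d k) * ∑ k, d k) = ∑ k, τ (star (d k) * d k) := by
    rw [star_sum, sum_mul_sum, map_sum]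
    refine sum_congr rfl fun k _ => ?_
    rw [map_sum, Finset.sum_eq_single k (fun l _ hl => hz k l hl.symm) (by simp)]
  rw [h, Complex.re_sum, mul_pow, Real.sq_sqrt (Nat.cast_nonneg N)]
  calc ∑ k, (τ (star (d k) * d k)).re ≤ ∑ _k : Fin N, (4 : ℝ) := by
        refine sum_le_sum fun k _ => ?_
        rw [← T.sq_sn]
        nlinarith [hd k, sn_nonneg (τ := τ) (d k)]
    _ = 2 ^ 2 * (N : ℝ) := by simp; ring

/-- The normalised sum in one block. -/
def avg (r : Fin R) (a b : P) : A := (N : ℝ)⁻¹ • F.P1 r a b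

theorem norm_avg (r : Fin R) (a b : P) : ‖F.avg r a b‖ ≤ 1 := by
  rw [avg, norm_smul, norm_inv, RCLike.norm_natCast]
  rcases Nat.eq_zero_or_pos N with h | h
  · simp [h]
  · have hN : (0 : ℝ) < N := Nat.cast_pos.2 h
    rw [inv_mul_le_one₀ hN]
    exact (norm_sum_le _ _).trans ((sum_le_sum fun k _ => F.norm_p r a b k).trans (by simp))

theorem norm_K_le (hN : 2 ≤ N) (r : Fin R) (a b : P) : ‖F.blocks.K r a b‖ ≤ 1 := by
  rw [Blocks.K, norm_smul, norm_inv, RCLike.norm_natCast]
  have hE : (0 : ℝ) < Fintype.card (ULift.{v} (PairIdx N)) := by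
    rw [Fintype.card_ulift, card_pairIdx, Nat.cast_pos]
    exact Nat.choose_pos hN
  rw [inv_mul_le_one₀ hE]
  refine (norm_sum_le _ _).trans ((sum_le_sum fun e _ => (norm_mul_le _ _).trans
    (mul_le_one₀ (F.norm_pr r e a) (norm_nonneg _) (F.norm_pr r e b))).trans (by simp))

theorem K_sub_sq (hN : 2 ≤ N) (r : Fin R) (a b : P) :
    ‖F.blocks.K r a b - F.avg r a b * F.avg r a b‖ ≤ 2 / ((N : ℝ) - 1) := by
  have hN' : (2 : ℝ) ≤ N := by exact_mod_cast hN
  set p2 := ∑ k, F.p r a b k * F.p r a b k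
  have hK : F.blocks.K r a b =
      ((N : ℝ) * ((N : ℝ) - 1))⁻¹ • (F.P1 r a b * F.P1 r a b - p2) := by
    have hs := sum_pairs (F.p r a b) fun k l h => F.comm_p r a b h
    have e2 : ∑ e : ULift.{v} (PairIdx N), F.pr r e a * F.pr r e b =
        ∑ e : PairIdx N, F.p r a b e.1.1 * F.p r a b e.1.2 :=
      Fintype.sum_equiv Equiv.ulift _ _ fun e => F.pr_mul_pr r e a b
    rw [Blocks.K, P1, ← hs, add_sub_cancel_right, Fintype.card_ulift, card_pairIdx,
      Nat.cast_choose_two, show (blocks F).v = F.pr from rfl, e2, two_mul, ← two_smul ℝ, smul_smul]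
    congr 1
    field_simp
  have hp2 : ‖p2‖ ≤ N := (norm_sum_le _ _).trans ((sum_le_sum fun k _ => (norm_mul_le _ _).trans
    (mul_le_one₀ (F.norm_p r a b k) (norm_nonneg _) (F.norm_p r a b k))).trans (by simp))
  have hA : ‖F.avg r a b * F.avg r a b‖ ≤ 1 :=
    (norm_mul_le _ _).trans (mul_le_one₀ (F.norm_avg r a b) (norm_nonneg _) (F.norm_avg r a b))
  have e : F.blocks.K r a b - F.avg r a b * F.avg r a b =
      ((N : ℝ) - 1)⁻¹ • (F.avg r a b * F.avg r a b) - ((N : ℝ) * ((N : ℝ) - 1))⁻¹ • p2 := by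
    have hPP : F.P1 r a b * F.P1 r a b = ((N : ℝ) * N) • (F.avg r a b * F.avg r a b) := by
      rw [avg, smul_mul_smul_comm, smul_smul, ← mul_inv, mul_inv_cancel₀ (by positivity), one_smul]
    rw [hK, hPP, smul_sub, smul_smul]
    have : (N : ℝ) - 1 ≠ 0 := by linarith
    match_scalars <;> field_simp <;> ring
  rw [e]
  refine (norm_sub_le _ _).trans ?_
  have h0 : (0 : ℝ) < (N : ℝ) - 1 := by linarith
  rw [norm_smul, norm_smul, Real.norm_of_nonneg (by positivity), Real.norm_of_nonneg (by positivity)]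
  calc ((N : ℝ) - 1)⁻¹ * ‖F.avg r a b * F.avg r a b‖ + ((N : ℝ) * ((N : ℝ) - 1))⁻¹ * ‖p2‖
      ≤ ((N : ℝ) - 1)⁻¹ * 1 + ((N : ℝ) * ((N : ℝ) - 1))⁻¹ * N := by gcongr
    _ = 2 / ((N : ℝ) - 1) := by field_simp; ring

/-- The positive approximation of the averaged covariance. -/
def Hm (a b : P) : A := (R : ℝ)⁻¹ • ∑ r, star (F.avg r a b) * F.avg r a b

theorem Hm_nonneg (a b : P) : 0 ≤ F.Hm a b :=
  smul_nonneg (by positivity) (sum_nonneg fun r _ => star_mul_self_nonneg _)

theorem norm_mean_le (f : Fin R → A) {C : ℝ} (hf : ∀ r, ‖f r‖ ≤ C) (hR : 0 < R) :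
    ‖(R : ℝ)⁻¹ • ∑ r, f r‖ ≤ C := by
  have hR' : (0 : ℝ) < R := Nat.cast_pos.2 hR
  rw [norm_smul, norm_inv, RCLike.norm_natCast, inv_mul_le_iff₀ hR']
  exact (norm_sum_le _ _).trans ((sum_le_sum fun r _ => hf r).trans (by simp))

theorem norm_Hm (hR : 0 < R) (a b : P) : ‖F.Hm a b‖ ≤ 1 :=
  norm_mean_le _ (fun r => (norm_mul_le _ _).trans
    (mul_le_one₀ (by rw [norm_star]; exact F.norm_avg r a b) (norm_nonneg _) (F.norm_avg r a b))) hR

theorem sn_Kbar_sub_Hm (hN : 2 ≤ N) (hR : 0 < R) {τ : A →ₗ[ℂ] ℂ} (hτ : τ ∈ c.T) (a b : P)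
    (h16 : 16 ≤ N) : sn τ (F.blocks.Kbar a b - F.Hm a b) ≤ 4 / Real.sqrt N := by
  have T := c.tr τ hτ
  have hN' : (16 : ℝ) ≤ N := by exact_mod_cast h16
  have hs : 4 ≤ Real.sqrt N := Real.le_sqrt_of_sq_le (by norm_num; linarith)
  have hsq := Real.mul_self_sqrt (show (0 : ℝ) ≤ N by linarith)
  have hr : ∀ r, sn τ (F.blocks.K r a b - star (F.avg r a b) * F.avg r a b) ≤ 4 / Real.sqrt N := by
    intro r
    have h1 : sn τ (F.blocks.K r a b - F.avg r a b * F.avg r a b) ≤ 2 / Real.sqrt N := by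
      refine (T.sn_le_norm _).trans ((F.K_sub_sq hN r a b).trans ?_)
      exact div_le_div_of_nonneg_left (by norm_num) (by linarith) (by nlinarith)
    have h2 : sn τ ((F.avg r a b - star (F.avg r a b)) * F.avg r a b) ≤ 2 / Real.sqrt N := by
      refine (T.sn_mul_le_right _ _).trans ((mul_le_of_le_one_right (sn_nonneg _) (F.norm_avg r a b)).trans ?_)
      rw [avg, star_smul, star_trivial, ← smul_sub, T.sn_smul_real, abs_of_nonneg (by positivity)]
      calc (N : ℝ)⁻¹ * sn τ (F.P1 r a b - star (F.P1 r a b)) ≤ (N : ℝ)⁻¹ * (2 * Real.sqrt N) :=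
            mul_le_mul_of_nonneg_left (F.sn_P1_sub_le hτ r a b) (by positivity)
        _ = 2 / Real.sqrt N := by field_simp; nlinarith
    calc sn τ (F.blocks.K r a b - star (F.avg r a b) * F.avg r a b)
        = sn τ ((F.blocks.K r a b - F.avg r a b * F.avg r a b) +
            (F.avg r a b - star (F.avg r a b)) * F.avg r a b) := by congr 1; noncomm_ring
      _ ≤ _ := (T.sn_add_le _ _).trans ((add_le_add h1 h2).trans_eq (by ring))
  rw [Blocks.Kbar, Hm, ← smul_sub, ← Finset.sum_sub_distrib, T.sn_smul_real,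
    abs_of_nonneg (by positivity), inv_mul_le_iff₀ (Nat.cast_pos.2 hR)]
  exact (T.sn_sum_le _ _).trans ((sum_le_sum fun r _ => hr r).trans (by simp))

theorem norm_Kbar (hN : 2 ≤ N) (hR : 0 < R) (a b : P) : ‖F.blocks.Kbar a b‖ ≤ 1 :=
  norm_mean_le _ (fun r => F.norm_K_le hN r a b) hR

theorem star_Kbar (a b : P) : star (F.blocks.Kbar a b) = F.blocks.Kbar b a := by
  simp only [Blocks.Kbar, Blocks.K, star_smul, star_trivial, star_sum, star_mul,
    (F.blocks.sa _ _ _).star_eq]

theorem norm_br_le {x y : A} (hx : ‖x‖ ≤ 1) (hy : ‖y‖ ≤ 1) : ‖br x y‖ ≤ 2 := by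
  have h1 := (norm_mul_le x y).trans (mul_le_one₀ hx (norm_nonneg _) hy)
  have h2 := (norm_mul_le y x).trans (mul_le_one₀ hy (norm_nonneg _) hx)
  exact (norm_sub_le _ _).trans (by linarith)

theorem norm_br_Kbar (hN : 2 ≤ N) (a b : P) {w : A} (hw : ‖w‖ ≤ 1) (r₀ : Fin R)
    (hc : ∀ r, r ≠ r₀ → Commute w (F.blocks.K r a b)) : ‖br w (F.blocks.Kbar a b)‖ ≤ 4 / R := by
  have e : br w (F.blocks.Kbar a b) = (R : ℝ)⁻¹ • br w (F.blocks.K r₀ a b) := by
    simp only [br, Blocks.Kbar, mul_smul_comm, smul_mul_assoc, mul_sum, sum_mul, ← smul_sub,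
      ← Finset.sum_sub_distrib]
    congr 1
    exact Finset.sum_eq_single r₀ (fun r _ hr => by rw [(hc r hr).eq, sub_self]) (by simp)
  rw [e, norm_smul, norm_inv, RCLike.norm_natCast, inv_mul_eq_div]
  gcongr
  linarith [norm_br_le hw (F.norm_K_le hN r₀ a b)]

theorem comm_K_left {w : A} (r : Fin R) (a b : P) (h : ∀ e (d : P), Commute w (F.blocks.v r e d)) :
    Commute w (F.blocks.K r a b) :=
  (Commute.sum_right _ _ _ fun e _ => (h e a).mul_right (h e b)).smul_right _

theorem gram (t : P → ℝ) :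
    ∃ D, star D * D = ∑ a, ∑ b, (t a * t b) • F.blocks.Kbar a b := by
  set H := ∑ a, ∑ b, (t a * t b) • F.blocks.Kbar a b
  have e : H = (R : ℝ)⁻¹ • ∑ r, (Fintype.card (ULift.{v} (PairIdx N)) : ℝ)⁻¹ •
      ∑ e, star (∑ a, t a • F.blocks.v r e a) * ∑ a, t a • F.blocks.v r e a := by
    simp only [H, Blocks.Kbar, Blocks.K, star_sum, star_smul, star_trivial,
      (F.blocks.sa _ _ _).star_eq, sum_mul_sum, smul_mul_smul_comm, smul_sum, smul_smul]
    conv_lhs =>
      enter [2, b, 2, a]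
      rw [Finset.sum_comm]
    conv_rhs =>
      enter [2, r]
      rw [Finset.sum_comm]
      enter [2, a]
      rw [Finset.sum_comm]
    rw [Finset.sum_comm (γ := Fin R)]
    refine sum_congr rfl fun a _ => ?_
    rw [Finset.sum_comm (γ := Fin R)]
    refine sum_congr rfl fun b _ => ?_
    rw [Finset.sum_comm]
    refine sum_congr rfl fun r _ => sum_congr rfl fun e _ => ?_
    congr 1
    ring
  have h0 : 0 ≤ H := by
    rw [e]
    exact smul_nonneg (by positivity) (sum_nonneg fun r _ =>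
      smul_nonneg (by positivity) (sum_nonneg fun e _ => star_mul_self_nonneg _))
  refine ⟨CFC.sqrt H, ?_⟩
  rw [(CFC.sqrt_nonneg H).isSelfAdjoint.star_eq, CFC.sqrt_mul_sqrt_self H h0]

end FreshUnits

/-- The blocks exist. -/
theorem pairBlocks_ok : PairBlocksStatement.{u, v} := by
  intro G _ _ A _ c S hS P N R hN hR
  obtain ⟨F⟩ := exists_freshUnits c hS (R * N)
  have hK : ∀ r s, r ≠ s → ∀ a b a' b' : P, Commute (F.blocks.K r a b) (F.blocks.K s a' b') :=
    fun r s hrs a b a' b' => F.comm_K_left s a' b' fun e d =>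
      (F.comm_K_left r a b fun e' d' => F.blocks.comm_vv s r hrs.symm e d e' d').symm
  have hbig : ∀ a b : P, ∀ τ ∈ c.T, N < 16 → ∀ y : A, ‖y‖ ≤ 1 →
      sn τ (F.blocks.Kbar a b - y) ≤ 8 / Real.sqrt N := by
    intro a b τ hτ h16 y hy
    have hN' : (N : ℝ) ≤ 16 := by exact_mod_cast h16.le
    have hs : Real.sqrt N ≤ 4 := Real.sqrt_le_iff.2 ⟨by norm_num, by norm_num; linarith⟩
    have hs0 : 0 < Real.sqrt N := Real.sqrt_pos.2 (by exact_mod_cast (show 0 < N by omega))
    refine ((c.tr τ hτ).sn_le_norm _).trans ((norm_sub_le _ _).trans ?_)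
    rw [le_div_iff₀ hs0]
    nlinarith [F.norm_Kbar hN hR a b, norm_nonneg (F.blocks.Kbar a b), norm_nonneg y]
  refine ⟨{ E := ULift.{v} (PairIdx N), κ := ULift.{v} (Fin N) × P, fintypeE := inferInstance, finiteκ := inferInstance, card_E := by rw [Fintype.card_ulift, card_pairIdx], B := F.blocks, comm_v := ?_, comm_z := ?_, act_v := ?_, norm_K := F.norm_Kbar hN hR, star_K := F.star_Kbar, br_z := ?_, br_v := ?_, br_K := ?_, sym_K := ?_, diag_K := ?_, nonneg_K := ?_, gram_K := F.gram }⟩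
  · exact fun r e a s hs => (((F.commS _ _ s hs).1).mul_left ((F.commS _ _ s hs).1))
  · exact fun r j s hs => (F.commS _ _ s hs).2
  · intro h a b hab r e
    show c.act h (F.xa r e.down.1.1 a * F.xa r e.down.1.2 a) = F.xa r e.down.1.1 b * F.xa r e.down.1.2 b
    simp only [FreshUnits.xa, map_mul, ← c.act_mul, hab]
  · exact fun r j a b => F.norm_br_Kbar hN a b (F.norm_za _ _ _) r fun s hs =>
      F.comm_K_left s a b fun e d => F.blocks.comm_zv r s hs.symm j e d
  · exact fun r e k a b => F.norm_br_Kbar hN a b (F.norm_pr _ _ _) r fun s hs =>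
      F.comm_K_left s a b fun f d => F.blocks.comm_vv r s hs.symm e k f d
  · intro a b a' b'
    have h1 : ∀ r, ‖br (F.blocks.K r a b) (F.blocks.Kbar a' b')‖ ≤ 4 / R := fun r =>
      F.norm_br_Kbar hN a' b' (F.norm_K_le hN r a b) r fun s hs => hK r s hs.symm a b a' b'
    have e : br (F.blocks.Kbar a b) (F.blocks.Kbar a' b') =
        (R : ℝ)⁻¹ • ∑ r, br (F.blocks.K r a b) (F.blocks.Kbar a' b') := by
      conv_lhs => rw [br, show F.blocks.Kbar a b = (R : ℝ)⁻¹ • ∑ r, F.blocks.K r a b from rfl]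
      simp only [br, smul_mul_assoc, mul_smul_comm, sum_mul, mul_sum, smul_sub,
        Finset.sum_sub_distrib]
    rw [e]
    exact FreshUnits.norm_mean_le _ h1 hR
  · intro a b τ hτ
    rcases lt_or_ge N 16 with h16 | h16
    · exact hbig a b τ hτ h16 _ (F.norm_Kbar hN hR b a)
    · have T := c.tr τ hτ
      have h1 := F.sn_Kbar_sub_Hm hN hR hτ a b h16
      have hsa : star (F.Hm a b) = F.Hm a b := (F.Hm_nonneg a b).isSelfAdjoint.star_eq
      calc sn τ (F.blocks.Kbar a b - F.blocks.Kbar b a)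
          = sn τ ((F.blocks.Kbar a b - F.Hm a b) - star (F.blocks.Kbar a b - F.Hm a b)) := by
            rw [star_sub, F.star_Kbar, hsa]; congr 1; abel
        _ ≤ _ := (T.sn_sub_le _ _).trans (by rw [T.sn_star]; exact (add_le_add h1 h1).trans_eq (by ring))
  · intro a
    simp only [Blocks.Kbar, Blocks.K, show (FreshUnits.blocks F).v = F.pr from rfl, F.pr_sq,
      Finset.sum_const, Finset.card_univ, Fintype.card_fin]
    have hE : (0 : ℝ) < Fintype.card (ULift.{v} (PairIdx N)) := by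
      rw [Fintype.card_ulift, card_pairIdx, Nat.cast_pos]
      exact Nat.choose_pos hN
    rw [← Nat.cast_smul_eq_nsmul ℝ, ← Nat.cast_smul_eq_nsmul ℝ, smul_smul, smul_smul, smul_smul,
      inv_mul_cancel₀ (Nat.cast_ne_zero.2 hR.ne'), one_mul, inv_mul_cancel₀ hE.ne', one_smul]
  · intro a b
    refine ⟨CFC.sqrt (F.Hm a b), ?_, fun τ hτ => ?_⟩
    · refine (sq_le_one_iff₀ (norm_nonneg _)).1 ?_
      rw [sq, ← CStarRing.norm_star_mul_self, (CFC.sqrt_nonneg _).isSelfAdjoint.star_eq,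
        CFC.sqrt_mul_sqrt_self _ (F.Hm_nonneg a b)]
      exact F.norm_Hm hR a b
    · rw [(CFC.sqrt_nonneg _).isSelfAdjoint.star_eq, CFC.sqrt_mul_sqrt_self _ (F.Hm_nonneg a b)]
      rcases lt_or_ge N 16 with h16 | h16
      · exact hbig a b τ hτ h16 _ (F.norm_Hm hR a b)
      · exact (F.sn_Kbar_sub_Hm hN hR hτ a b h16).trans
          (by gcongr; norm_num)

end Vale.Agent.P095
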